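import Crest.Agent.X212.Kit16.Pt
import Crest.Agent.X212.Mod61.Cls
import Crest.Agent.X212.An.CutI
import Crest.Agent.X212.Eqv71.Fre
import Crest.Agent.X212.Wrd81.Jb

/-!
# Row 212, KIT (helper16): the gauge theory of a part of a closed family
-/

set_option autoImplicit false
set_option linter.unusedSectionVars false
noncomputable section
open scoped Manifold ContDiff Topology InnerProductSpace
open MeasureTheory Set Function Filter Module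

namespace Crest.Agent.X212.Kit16
open An Prm93 Eqv71 Sob92 Mod61 Nd18
open Map77 (n0 Aff adj_closed)

variable {E : Type} [NormedAddCommGroup E] [NormedSpace ℝ E] [FiniteDimensional ℝ E]
  [MeasurableSpace E] [BorelSpace E]
  {HM : Type} [TopologicalSpace HM] {I : ModelWithCorners ℝ E HM} [I.Boundaryless]
  {M : Type} [TopologicalSpace M] [ChartedSpace HM M] [IsManifold I ∞ M]
  [MeasurableSpace M] [T2Space M] [BorelSpace M] [SecondCountableTopology M] [CompactSpace M]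
  {ι : Type} [Fintype ι] [DecidableEq ι] {lam : Type} [Fintype lam]
  {T : Type} [NormedAddCommGroup T] [NormedSpace ℝ T] [FiniteDimensional ℝ T]
  {𝔉 : Fam I M ι lam T} {r n m : ℕ} {W : Type}

/-- no real rows (`= Mon62.px`) -/
def px (m : ℕ) (τ : Pt M ι lam r n) : PtX M ι lam r n m := ⟨τ, fun _ => 0⟩

variable (M ι lam T r n m) in
/-- the row `‖z‖² - 1` -/
def nM (_ : T) : PtX M ι lam r n m :=
  ⟨⟨fun _ => 0, fun _ => 0, fun _ => 0⟩, fun c _ => ‖c.z‖ ^ 2 - 1⟩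

theorem sm_nM (o : Ref 𝔉) : o.Sm (nM M ι lam T r n m) := fun k _ =>
  ⟨fun v => (0, 0, 0, fun _ => ‖v.2.2.1‖ ^ 2 - 1), (contDiff_const.prodMk (contDiff_const.prodMk
    (contDiff_const.prodMk (contDiff_pi.2 fun _ => ((contDiff_norm_sq ℂ).comp (by fun_prop)).sub
      contDiff_const)))).contDiffOn, fun y =>
    ⟨val_zero.trans (indicator_zero' _).symm, val_zero.trans (indicator_zero' _).symm, rfl, rfl⟩⟩

theorem row_min {z : EuclideanSpace ℂ (Fin r)} (hz : r = 0 ∨ z ≠ 0) (ρ : Fin (min r 1) → ℝ) :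
    ∃ ζ : EuclideanSpace ℂ (Fin r),
      HasDerivAt (fun s : ℝ => fun _ : Fin (min r 1) => ‖z + s • ζ‖ ^ 2 - 1) ρ 0 := by
  rcases hz with rfl | hz
  · exact ⟨0, hasDerivAt_pi.2 fun i => i.elim0⟩
  rcases isEmpty_or_nonempty (Fin (min r 1)) with e | ⟨⟨j⟩⟩
  · exact ⟨0, hasDerivAt_pi.2 fun i => e.elim i⟩
  obtain ⟨ζ, h⟩ := Wrd81.row_norm hz (a := -1) one_ne_zero fun _ => ρ j
  refine ⟨ζ, hasDerivAt_pi.2 fun i => ?_⟩
  obtain rfl : i = j := Fin.ext (by have := i.2; have := j.2; omega)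
  simpa only [one_mul, neg_add_eq_sub] using hasDerivAt_pi.1 h 0

/-- the dimension -/
def dm {o : Ref 𝔉} (n : ℕ) (y : Pnt o r) : ℤ :=
  n0 y + 2 * r + finrank ℝ T - 2 * n - 2 * (min r 1 : ℕ)

/-- the stratum -/
def KK {o : Ref 𝔉} (n : ℕ) (d : ℤ) (y : Pnt o r) : Prop :=
  dm n y = d ∧ (𝔉.Om'.Nonempty → ∃ x, y.cfg.Φ x ≠ 0)

variable (𝔉) in
/-- a closed problem: the perturbation `τ0 + ∑ q w • τ w` -/
structure CH (τ0 : T → Pt M ι lam r n) (τ : W → T → Pt M ι lam r n) : Prop extends 𝔉.OK where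
  h4 : finrank ℝ E = 4
  sm0 : ∀ a : Rz 𝔉.B 𝔉.G0, (a.ref 𝔉).Sm fun t => px (min r 1) (τ0 t)
  sm : ∀ w (a : Rz 𝔉.B 𝔉.G0), (a.ref 𝔉).Sm fun t => px (min r 1) (τ w t)
  nat0 : ∀ t ∈ 𝔉.Q, PNat0 𝔉.B (𝔉.G t) 𝔉.Om (τ0 t)
  nat : ∀ w, ∀ t ∈ 𝔉.Q, PNat0 𝔉.B (𝔉.G t) 𝔉.Om (τ w t)

namespace CH
variable {τ0 : T → Pt M ι lam r n} {τ : W → T → Pt M ι lam r n} (h : CH 𝔉 τ0 τ) (d : ℤ)

/-- the theory -/
@[reducible] def th : Th 𝔉 r n (min r 1) W where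
  O := Rz 𝔉.B 𝔉.G0
  ref a := a.ref 𝔉
  Al _ _ _ c := r = 0 → c = 1
  k := 8
  Γ a := (exists_grp (o := a.ref 𝔉) (r := r) h.toOK rfl).choose
  e := 𝔉.eq0 r n _ + (nM M ι lam T r n _ - fun t => px _ (τ0 t))
  τ w := -fun t => px _ (τ w t)
  K _ y := KK n d y
  d := d

omit h in
variable (τ0 τ) in
/-- the perturbation -/
abbrev pq (q : W →₀ ℝ) (t : T) : Pt M ι lam r n := (τ0 t).add (fsum (fun w => τ w t) q)

variable (q : W →₀ ℝ) (t : T) (c : Cfg M ι lam r)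

theorem tot_eq : (h.th d).tot q t =
    𝔉.eq0 r n _ t + nM M ι lam T r n _ t - px _ (pq τ0 τ q t) := by
  have k := PtX.sum_ev q.support fun w => q w • px (min r 1) (τ w t)
  have : px (min r 1) (pq τ0 τ q t) = px _ (τ0 t) + ∑ w ∈ q.support, q w • px _ (τ w t) :=
    PtX.eqv.injective (funext fun c => Prod.ext
      (congrArg ((τ0 t).D c + ·) ((Finset.sum_fn _ _).symm.trans (k c).1.symm))
      (Prod.ext (congrArg ((τ0 t).C c + ·) ((Finset.sum_fn _ _).symm.trans (k c).2.1.symm))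
        (Prod.ext (congrArg ((τ0 t).S c + ·) ((Finset.sum_fn _ _).symm.trans (k c).2.2.1.symm))
          ((zero_add _).trans ((k c).2.2.2.trans (Finset.sum_eq_zero fun _ _ => smul_zero _))).symm)))
  simp only [Th.tot, Finsupp.sum, Pi.add_apply, Finset.sum_apply, Pi.smul_apply, smul_neg,
    Finset.sum_neg_distrib, this, Pi.sub_apply, Pi.neg_apply]
  abel

theorem zr_iff {x : (h.th d).X} : (h.th d).Zr q x ↔
    (∀ p ∈ 𝔉.Om', x.2.cfg.eD (𝔉.G x.2.t) (pq τ0 τ q x.2.t) p = 0) ∧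
    (∀ p ∈ 𝔉.Om, x.2.cfg.eC 𝔉.B (𝔉.G x.2.t) (pq τ0 τ q x.2.t) p = 0) ∧
    (∀ i, (pq τ0 τ q x.2.t).S x.2.cfg i = 0) ∧ (r = 0 ∨ ‖x.2.z‖ = 1) := by
  rw [Th.Zr, tot_eq]
  refine Iff.trans ⟨fun k => ⟨k.1, k.2, k.3, k.4⟩, fun k => ⟨k.1, k.2.1, k.2.2.1, k.2.2.2⟩⟩
    (and_congr ?_ (and_congr ?_ (and_congr ?_ ?_)))
  · simp [PtX.add_D, PtX.sub_D, nM, px, Fam.eq0, eq0, Cfg.eD]
  · simp [PtX.add_C, PtX.sub_C, nM, px, Fam.eq0, eq0, Cfg.eC]
  · simp [PtX.add_S, PtX.sub_S, nM, px, Fam.eq0, eq0, funext_iff]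
  · simp only [PtX.add_R, PtX.sub_R, nM, px, Fam.eq0, eq0, funext_iff, Pi.add_apply, Pi.sub_apply,
      Pi.zero_apply, zero_add, sub_zero, sub_eq_zero,
      pow_eq_one_iff_of_nonneg (norm_nonneg _) two_ne_zero]
    rcases eq_or_ne r 0 with rfl | hr
    · exact ⟨fun _ => .inl rfl, fun _ i => i.elim0⟩
    · exact ⟨fun k => .inr (k ⟨0, by omega⟩), fun k _ => k.resolve_left hr⟩

theorem aff_e (a : Rz 𝔉.B 𝔉.G0) : Aff (a.ref 𝔉) (fun t => (𝔉.G t).F) r n _ (h.th d).e :=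
  (adj_closed h.toOK).aff_eq0.add h.toOK
    (mem_SmS.1 (sub_mem (mem_SmS.2 (sm_nM _)) (mem_SmS.2 (h.sm0 a))))

theorem sm_τ (a : Rz 𝔉.B 𝔉.G0) (w : W) : (a.ref 𝔉).Sm ((h.th d).τ w) :=
  mem_SmS.1 (neg_mem (mem_SmS.2 (h.sm w a)))

include h in
theorem nat_of {σ : T → PtX M ι lam r n m} (p : ∀ t ∈ 𝔉.Q, PNat0 𝔉.B (𝔉.G t) 𝔉.Om (σ t).toPt)
    (hR : ∀ t c c', ‖c'.z‖ = ‖c.z‖ → (σ t).R c' = (σ t).R c) : 𝔉.Nat σ := fun t ht =>
  natOn_of_pnat0 h.B (h.G t ht) h.Om.2 h.sub (p t ht) fun _ _ _ _ k => hR t _ _ (ceq_norm_z k.e)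

include h in
theorem dm_eq {o o' : Ref 𝔉} {y : Pnt o r} {y' : Pnt o' r} {w : M → CL o.m.V o'.m.V} {c : Circle}
    (ht : y'.t = y.t) (e : y.Eq y' w c) : dm n y' = dm n y := by
  have : (n0 y' : ℝ) = n0 y := by
    rw [n0_ix h.toOK h.h4, n0_ix h.toOK h.h4, ht]
    exact ix_congr h.Om.2 h.Om'.2 h.sub fun x hx => (lmC h.toOK ht e).kd hx
  rw [dm, dm, Int.cast_injective this]

include h in
theorem K_eqv {o o' : Ref 𝔉} {y : Pnt o r} {y' : Pnt o' r} {w : M → CL o.m.V o'.m.V} {c : Circle}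
    (ht : y'.t = y.t) (e : y.Eq y' w c) (i : KK n d y) : KK n d y' := by
  refine ⟨(h.dm_eq ht e).trans i.1, fun k => ?_⟩
  obtain ⟨p, hp⟩ := i.2 k
  have a' : Ad0 y'.cfg 𝔉.B (𝔉.G y.t) := ht ▸ y'.ad0 h.toOK
  have := ceq_norm (lg_refl h.B (h.G _ y.ht) h.Om.2) (y.ad0 h.toOK) a' e
    (h.sub (by_contra fun k => hp (y.off h.toOK p k)))
  exact ⟨p, fun k => hp (norm_eq_zero.1 (this.symm.trans (norm_eq_zero.2 k)))⟩

include h in
theorem K_open {o : Ref 𝔉} {x : Pnt o r} (i : KK n d x) :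
    ∀ᶠ v in 𝓝 (x.pt 8), ∀ y : Pnt o r, y.pt 8 = v → KK n d y := by
  have c : ContinuousAt (fun v : o.C r 8 => v.2.2.2) (x.pt 8) := by fun_prop
  have k1 : ∀ᶠ v in 𝓝 (x.pt 8), 𝔉.Om'.Nonempty → ∃ p, o.Φ0 p + 𝔉.F0.val _ _ v.2.1 p ≠ 0 := by
    by_cases k : 𝔉.Om'.Nonempty
    · obtain ⟨p, hp⟩ := i.2 k
      have c : Continuous fun v : o.C r 8 => o.Φ0 p + 𝔉.F0.val _ _ v.2.1 p :=
        continuous_const.add ((continuous_val_apply p).comp (by fun_prop))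
      exact (c.continuousAt.eventually_ne (x := x.pt 8) (y := 0) (by
        rw [x.val_φ (by omega)]; exact hp)).mono fun v hv _ => ⟨p, hv⟩
    · exact .of_forall fun _ k' => (k k').elim
  filter_upwards [c.eventually (n0_ev h.toOK h.h4 x), k1] with v h1 h2 y e
  subst e
  rw [y.val_φ (by omega)] at h2
  exact ⟨by rw [← i.1, dm, dm, h1 y rfl], h2⟩

theorem nat_e (o o' : Ref 𝔉) (Al) : NatP o o' Al (h.th d).e := mem_natS.1 <| (natS o o' n _ Al).add_mem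
  (Fam.Nat.natP h.toOK (fun t ht => natOn_eq0 h.B (h.G t ht) h.Om.2 h.sub) _ _ _)
  ((natS _ _ n _ _).sub_mem (Fam.Nat.natP h.toOK (h.nat_of (σ := nM M ι lam T r n _)
    (fun t _ => ⟨fun _ _ _ => by simp [nM, cs_zero], fun _ _ _ => by simp [nM],
      fun _ _ => by simp [nM]⟩) fun _ _ _ e => by simp only [nM, e]) _ _ _)
    (Fam.Nat.natP h.toOK (h.nat_of (σ := fun t => px _ (τ0 t)) h.nat0 fun _ _ _ _ => rfl) _ _ _))

theorem nat_τ (o o' : Ref 𝔉) (Al) (w : W) : NatP o o' Al ((h.th d).τ w) :=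
  mem_natS.1 <| (natS o o' n _ Al).neg_mem (Fam.Nat.natP h.toOK (h.nat_of (σ := fun t => px _ (τ w t)) (h.nat w) fun _ _ _ _ => rfl) _ _ _)

theorem slc {a : Rz 𝔉.B 𝔉.G0} {x : Pnt (a.ref 𝔉) r} (i : dm n x = d) :
    ((h.th d).Γ a).Slc ((h.th d).tot q) d x := by
  have := (exists_grp (o := a.ref 𝔉) (r := r) h.toOK rfl).choose_spec n _ _ x
    ((h.aff_e d a).tot h.toOK (h.sm_τ d a) q)
  rwa [sub_sub, ← two_mul, show _ - _ = d from i] at this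

theorem ok : (h.th d).OK fun _ => True where
  fam := h.toOK
  refl _ _ := rfl
  symm _ _ _ _ _ _ k e := by rw [k e, inv_one]
  trans _ _ _ _ _ _ _ _ _ _ _ k k' e := by rw [k e, k' e, one_mul]
  hk := by norm_num
  mv _ _ _ _ _ _ _ := mv_B0
  re a := (adj_closed h.toOK).rp (h.aff_e d a)
  rτ a w := (h.sm_τ d a w).rp h.toOK
  ne _ _ := h.nat_e d _ _ _
  nτ _ _ := h.nat_τ d _ _ _
  K_eqv := fun _ _ ⟨ht, _, _, _, e⟩ i => h.K_eqv d ht e i.2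
  K_open _ _ _ i _ := (h.K_open d i.2).mono fun _ k y e _ => k y e
  slc q _ _ i _ := h.slc d q i.2.1

/-- solutions -/
theorem sol_of {x : (h.th d).X} (H : Irr x.2) (hd : dm n x.2 = d)
    (hΦ : 𝔉.Om'.Nonempty → ∃ p, x.2.cfg.Φ p ≠ 0) (hz : (h.th d).Zr q x) :
    (h.th d).In x ∧ (h.th d).Zr q x :=
  ⟨⟨free h.toOK H (((h.zr_iff d q).1 hz).2.2.2.imp id fun k =>
    norm_ne_zero_iff.1 (k.trans_ne one_ne_zero)), hd, hΦ⟩, hz⟩

end CH

end Crest.Agent.X212.Kit16
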