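import Crest.Agent.X212.Kit16.Mdl
import Crest.Agent.X212.Kof81.Cls

/-!
# Row 212, KIT (helper16): the field `mdl` of the kit leaves
-/

set_option autoImplicit false
set_option linter.unusedSectionVars false
noncomputable section
open Set Function Filter

namespace Crest.Agent.X212.Kit16
open An An.Job M G75 Ins26 Kof81

section
variable {Wi : Type} {X : Mf 4} {A κ lam : Type} [Fintype A] [Fintype κ] [Fintype lam]
  [DecidableEq lam] {M : Mark X A κ} {W : World M} {L : ML M lam} {Λ : Lns W L}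
  {A' h : Type} [Fintype A'] [DecidableEq A'] [Fintype h] {r n : ℕ} (J : Job Wi Λ A' h r n)

/-- **LEAF CHG** for the models `mdlD` (row 6709) -/
def ChgL : Prop := ∀ (hJ : J.OK) (hne : J.𝒦.Nonempty) (n₀ : ℤ), r ≠ 0 →
  (∀ σ ∈ J.𝒦, ∀ s, J.Ov σ M.c0 s → 6 * J.k + tp0 J s + 2 * r - 2 * n - 2 - 2 * Fintype.card h = n₀) →
  ∀ Adm, AllD J fun _ _ _ _ _ d q₀ δ => d.Gen q₀ δ 8 → d.Chg δ 8 (mdlD hJ hne n₀) Adm

end

variable {κ lam : Type} [Fintype κ] [Fintype lam] [DecidableEq lam] {Lm : LM κ lam}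
  {S : Scene Lm} {D : S.Dat} {i : S.L} {Wi : Type} {r n : ℕ}
  {J : Job Wi (D.Λ i) (S.A ⊕ Unit) S.ls r n} {X : Finset S.A} {a₀ : Option S.A} {j : ℕ} {n₀ : ℤ}
  {T : ℝ}

theorem mdlL (H : Rf65.GX J X a₀ j n₀ T) (hne : J.𝒦.Nonempty) (hc : ChgL J) : MdlL J n₀ :=
  ⟨mdlD H.ok hne n₀, rfl, rfl, ax_sc H.ok H.r H.k H.rich hne, fun _ _ _ _ _ _ => rfl,
    hc H.ok hne n₀ (by have := H.r; omega) (sc_I H.ok H.r H.k)⟩

theorem mdlF (hc : AllS Lm fun J => ChgL J) : AllF Lm fun J n₀ => MdlL J n₀ :=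
  fun S D i Wi r n J _ _ _ H hne => mdlL H hne (hc S D i Wi r n J H.sc H.ok)

end Crest.Agent.X212.Kit16
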