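import Crest.Agent.X212.Kit16.Dn
import Crest.Agent.X212.Nd18.Fk
import Crest.Agent.X212.Fex7.Iso

/-!
# Row 212, FACT (helper16): density on the whole face; the dead pairs
-/

set_option autoImplicit false
set_option linter.unusedSectionVars false
noncomputable section
open scoped Manifold ContDiff Topology InnerProductSpace
open MeasureTheory Set Function Filter

namespace Crest.Agent.X212.Kit16
open An M Nd18 Mod61 Nk89 Cht98 Rf65 Eqv71 Wrd81 Pte3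
open An.Job (Sol SolOn)

section gen
variable {E : Type} [NormedAddCommGroup E] [NormedSpace ℝ E] [FiniteDimensional ℝ E]
  [MeasurableSpace E] [BorelSpace E]
  {HM : Type} [TopologicalSpace HM] {I : ModelWithCorners ℝ E HM} [I.Boundaryless]
  {M : Type} [TopologicalSpace M] [ChartedSpace HM M] [IsManifold I ∞ M]
  [MeasurableSpace M] [T2Space M] [BorelSpace M] [SecondCountableTopology M]
  {ι : Type} [Fintype ι] {lam : Type} [Fintype lam] {r r' n n' : ℕ}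

/-- another value of `z` -/
abbrev cz (c : Cfg M ι lam r) (z : EuclideanSpace ℂ (Fin r)) : Cfg M ι lam r := ⟨c.m, c.W, c.Φ, z⟩

/-- the part of a term that is linear in `z` -/
def tZ : Tm M lam r n → EuclideanSpace ℂ (Fin r) → Fin n → ℂ
  | .cz i w k, ζ => Pi.single i (w * ζ k)
  | _, _ => 0

theorem tS_cz (c : Cfg M ι lam r) (F : Fr I M ι) (ζ : EuclideanSpace ℂ (Fin r)) (τ : Tm M lam r n) :
    (cz c (c.z + ζ)).tS F τ = c.tS F τ + tZ τ ζ := by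
  have e : (cz c (c.z + ζ)).lt F = c.lt F := funext fun t => by cases t <;> rfl
  cases τ <;> simp [Cfg.tS, tZ, Cfg.sg, Cfg.sw, e, mul_add, Pi.single_add]

theorem richP_mp {Ω : Set M} {d : Co M lam r} {Av : Tm M lam r n → Prop}
    {Av' : Tm M lam r' n' → Prop} {f : Fin r → Fin r'} {g : Fin n → Fin n'} (h : RichP I Ω d Av)
    (a : ∀ τ, Av τ → Av' (τ.mp f g)) : RichP I Ω (d.mp f) Av' :=
  ⟨fun _ _ h1 h2 => a _ (h.lin _ _ h1 h2), fun _ _ h1 h2 => a _ (h.anti _ _ h1 h2),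
    fun _ _ _ _ _ h1 h2 h3 => a _ (h.ad _ _ _ _ _ h1 h2 h3),
    fun _ _ _ _ _ h1 h2 h3 h4 h5 => a _ (h.adj _ _ _ _ _ h1 h2 h3 h4 h5)⟩

variable {T : Type} [NormedAddCommGroup T] [NormedSpace ℝ T] {𝔉 : Mod61.Fam I M ι lam T}
  {o : Ref 𝔉} {m k : ℕ} {N : Submodule ℝ (o.Y n m k)} {y : Pnt o r} {Ω : Set M} (h : 𝔉.OK)
include h

theorem lc0 (D : Dn Ω N) (hN : IsClosed (N : Set (o.Y n m k))) (hk : 4 ≤ k) {e : o.Y n m k}
    (he : e ∈ Lc n o m k Ω) : (e.1, e.2.1, 0) ∈ N := by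
  let π : o.Y n m k →L[ℝ] o.Y n m k := (ContinuousLinearMap.id ℝ _).prodMap
    ((ContinuousLinearMap.id ℝ _).prodMap 0)
  have v : ∀ {a b}, Val N a b 0 → Val (N.comap π.toLinearMap) a b 0 := fun k e h1 h2 _ =>
    k _ h1 h2 rfl
  exact Dn.lc_le h (N := N.comap π.toLinearMap) ⟨fun u a b c => Ap.mono
    (fun _ k => ⟨k.1, v k.2⟩) (D.D u a b c), fun u a b c => Ap.mono (fun _ k => ⟨k.1, v k.2⟩)
      (D.C u a b c)⟩ (hN.preimage π.continuous) hk (fun _ => N.zero_mem)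
    (fun ρ => ⟨(0, 0, 0, ρ), N.zero_mem, mem_Lc.2 ⟨zero_mem _, zero_mem _⟩, rfl⟩) he

theorem row_zz {e : T → PtX M ι lam r n m} {f : o.C r k → o.Y n m k} (hf : RepF e f)
    {ζ : EuclideanSpace ℂ (Fin r)} {ρ : (Fin n → ℂ) × (Fin m → ℝ)}
    (hd : HasDerivAt (fun s : ℝ => ((e y.t).S (cz y.cfg (y.z + s • ζ)),
      (e y.t).R (cz y.cfg (y.z + s • ζ)))) ρ 0) :
    (fderiv ℝ f (y.pt k) (0, 0, ζ, 0)).2.2 = ρ := by
  have h1 := ((hf.1.contDiffAt ((Mod61.isOpen_U h).mem_nhds (Map77.pt_mem y))).differentiableAt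
    (by simp)).hasFDerivAt.hasLineDerivAt (0, 0, ζ, 0)
  refine HasDerivAt.unique ((ContinuousLinearMap.snd ℝ _ _ ∘L .snd ℝ _ _
    ).hasFDerivAt.comp_hasDerivAt 0 h1) (hd.congr_of_eventuallyEq (Eventually.of_forall fun s => ?_))
  have a := hf.2 { y with z := y.z + s • ζ }
  refine Eq.trans ?_ (Prod.ext a.S a.R)
  simp [Pnt.pt]

end gen

section job
variable {Wi : Type} {X : Mf 4} {A κ lam : Type} [Fintype A] [Fintype κ] [Fintype lam]
  [DecidableEq lam] {M : Mark X A κ} {W : World M} {N : ML M lam} {Λ : Lns W N}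
  {A' h : Type} [Fintype A'] [DecidableEq A'] [Fintype h] {r n : ℕ}
  {J : Job Wi Λ A' h r n} {c : M.Cl} {σ : Cel A'} {p : Prt A A' h} {q : Wi →₀ ℝ}

theorem τ_S (s : A' → ℝ) (x : Cfg (W.Z c).M (Option κ) (lam ⊕ lam) r) (i : Fin n) :
    (J.τ c q s).S x i = q.sum fun w a =>
      (a : ℂ) * (J.co w s * x.tS (J.G c s).F ((J.tp c).tm (J.tw w)) i) := by
  simp [Job.τ, Job.τ0, Job.τw, Pt.add, Pt.smul, Pt.dsum, fsum, An.tmP, ND.q1, Dgr80.DG.q1, ND.q2]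

variable (J q) in
/-- the row `i` kills the coordinate `j` -/
def Kills (s : A' → ℝ) (i : Fin n) (j : Fin r) : Prop := ∃ w₀, q w₀ ≠ 0 ∧ J.co w₀ s = 1 ∧
  J.tw w₀ = .cz i 1 j ∧ ∀ w ≠ w₀, J.co w s ≠ 0 →
    (∀ a g, J.tw w ≠ .cut i a g) ∧ ∀ i' a j', J.tw w = .cz i' a j' → i' ≠ i ∧ j' ≠ j

theorem Kills.zero {s : A' → ℝ} {i : Fin n} {j : Fin r} (H : Kills J q s i j)
    {x : Cfg (W.Z c).M (Option κ) (lam ⊕ lam) r} (e : (J.τ c q s).S x i = 0) : x.z j = 0 := by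
  obtain ⟨w₀, h1, h2, h3, h4⟩ := H
  rw [τ_S, Finsupp.sum_eq_single w₀ (fun w _ hw => ?_) (by simp)] at e
  · simpa [h1, h2, h3, Tp.tm, Cfg.tS] using e
  by_cases k : J.co w s = 0
  · simp [k]
  have := h4 w hw k
  generalize J.tw w = τ at this
  cases τ with
  | cut i' a g => simp [Tp.tm, Cfg.tS, Pi.single_eq_of_ne' fun e : i' = i => this.1 a g (e ▸ rfl)]
  | cz i' a j' => simp [Tp.tm, Cfg.tS, Pi.single_eq_of_ne' (this.2 _ _ _ rfl).1]
  | _ => simp [Tp.tm, Cfg.tS]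

theorem Kills.lin {s : A' → ℝ} {i : Fin n} {j : Fin r} (H : Kills J q s i j) : ∃ a : ℝ, a ≠ 0 ∧
    ∀ (x : Cfg (W.Z c).M (Option κ) (lam ⊕ lam) r) v, (J.τ c q s).S (cz x (x.z + .single j v)) =
      (J.τ c q s).S x + Pi.single i (a * v) := by
  obtain ⟨w₀, h1, h2, h3, h4⟩ := H
  refine ⟨_, h1, fun x v => funext fun i' => ?_⟩
  simp only [τ_S, tS_cz, Pi.add_apply, mul_add, Finsupp.sum_add, add_right_inj]
  rw [Finsupp.sum_eq_single w₀ (fun w _ hw => ?_) (by simp)]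
  · simp [h2, h3, Tp.tm, tZ, Pi.single_apply]
  by_cases k : J.co w s = 0
  · simp [k]
  have := h4 w hw k
  generalize J.tw w = τ at this
  cases τ with
  | cz i' a j' => simp [Tp.tm, tZ, (this.2 _ _ _ rfl).2]
  | _ => simp [Tp.tm, tZ]

variable {U : Type} [Fintype U] {δ : ℝ} {b : Bp J c} {E : EC b p U δ}
  {Adm : (Wi →₀ ℝ) → Prop} (H : CS σ E) {y : J.Obc c} {x : Pnt E.o r} {ψ : E.K}
  {K : Pnt E.o r → Prop} {d : ℤ} (g : (H.th K d).OK Adm) (S : SolOn p σ q y) (f : Fre p y)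
  (R : E.RepC y x ψ) (k : K x) (hb : b.s = y.s) (hI : Job.In p y)
include S f R k hb hI

/-- **density with dead pairs** -/
theorem onto_K (ha : Adm q) (hp : p.P' = p.P)
    (hF : ∀ π ∈ p.P', ∃ d, x.cfg.co (J.G c y.s).F ((J.tp c).co d) ≠ 0 ∧
      RichP X.I (M.sys.U π) d (J.HasT y.s))
    (hS : ∀ i, (∃ g, x.cfg.sg (J.G c y.s).F ((J.tp c).sg g) ≠ 0 ∧ ∀ w, J.HasT y.s (.cut i w g)) ∨
      ∃ j, Kills J q y.s i j) : ∃ S, g.Q.Onto q ⟨(), x⟩ S := by
  obtain ⟨u, ζ, e, -⟩ := R.e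
  have t : b.θ p U x.t = y.s := (θ_self (hb ▸ R.s)).trans hb
  have z0 : ∀ {i j}, Kills J q y.s i j → x.z j = 0 := fun k => by
    have : x.z = _ := e.z
    simp [this, k.zero (S.S _)]
  simp only [← t] at hF hS z0
  refine g.onto ha ((g.sol_iff q ⟨(), x⟩).2 ⟨⟨H.free S R.s e f, k⟩, H.zr S R.s e⟩)
    fun N n1 n2 n3 v => ?_
  have L := H.Lk
  have P := L.pin x q
  have hk : 6 ≤ 8 := by norm_num
  have D : Dn (W.φ c).targetᶜᶜ N := by
    rw [compl_compl]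
    exact L.dn (fun π hπ => ⟨(typ H S R hI).1 π hπ, hF π hπ⟩)
      (fun π h1 h2 => (h2 (hp ▸ h1)).elim) n3
  have hf : RepF (EC.tot b p U δ q) _ := g.repF () q
  have ev := fun z => tot_ev (b := b) (U := U) (δ := δ) (t := x.t) (q := q) (cz x.cfg z)
  refine P.top L.fam hk hf D n1 n2 (rows_of fun i w => ?_) (fun ρ => ?_) v
  · rcases hS i with ⟨g, h1, h2⟩ | ⟨j, h1⟩
    · exact div_mul_cancel₀ w h1 ▸ (L.av n3 (h2 _)).row
    obtain ⟨a, a0, h2⟩ := h1.lin (c := c)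
    let ξ : EuclideanSpace ℂ (Fin r) := .single j (-w / a)
    have h3 := row_zz L.fam (y := x) hf (ζ := ξ) (ρ := (Pi.single i w, 0)) ?_
    · convert sub_mem (n2 (0, 0, ξ, 0)) (lc0 L.fam D n1 (by norm_num) (P.row L.fam hk hf ξ)) using 1
      exact Prod.ext (sub_self _).symm (Prod.ext (sub_self _).symm (h3.symm.trans (sub_zero _).symm))
    have d1 : HasDerivAt (fun s : ℝ => x.z + s • ξ) ξ 0 := by
      simpa using ((hasDerivAt_id (0 : ℝ)).smul_const ξ).const_add x.z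
    refine HasDerivAt.prodMk ?_ (hasDerivAt_pi.2 fun l => ?_)
    · convert ((hasDerivAt_id (0 : ℝ)).smul_const (Pi.single i w : Fin n → ℂ)).const_add
        (-(J.τ c q (b.θ p U x.t)).S x.cfg) using 1
      · funext s l
        have := congrFun (h2 x.cfg (s * (-w / a))) l
        rw [(ev _).2.2.1, show s • ξ = .single j (s * (-w / a)) by
          ext l; simp [ξ, EuclideanSpace.single_apply]]
        refine (congrArg _ this).trans ?_
        have : (a : ℂ) ≠ 0 := by exact_mod_cast a0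
        simp only [Pi.add_apply, Pi.single_apply, Pi.neg_apply, Pi.smul_apply, id]
        split_ifs
        · simp; field_simp; ring
        · simp
      · simp
    · simp only [(ev _).2.2.2]
      convert d1.norm_sq.sub_const 1 using 1
      simp [ξ, PiLp.inner_apply, EuclideanSpace.single_apply, apply_ite Complex.re, z0 h1]
  · obtain ⟨ξ, h1⟩ := row_min ((H.nz S R.s e).imp id fun k =>
      norm_ne_zero_iff.1 (k.trans_ne one_ne_zero)) ρ
    exact ⟨_, n2 _, P.row L.fam hk hf ξ, row_z L.fam hk hf (φ := fun z _ => ‖z‖ ^ 2 - 1)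
      (fun y => (tot_ev y.cfg).2.2.2) h1⟩

end job

section prism
open G75 Jb7 Ins26 Fk18
variable {κ lam : Type} [Fintype κ] [Fintype lam] [DecidableEq lam] {Lm : LM κ lam}
  {y₀ : G75.YD κ lam} {S : Scene Lm} {t : TD y₀ S} {N : ND (yY y₀).M (lam ⊕ lam)} {n : ℕ}
  {D : S.Dat} {F : Pr t N n D} {c : Cn S.L S.A} {d : ℕ} {i : S.L} {m : ℕ} {k : Fin (n + 1)}
  {s : S.A ⊕ Unit → ℝ} {T : ℝ}

/-- the soft coordinate is `1` where `a` is broken -/
theorem u_one (h : F.OK c d T) {σ} (hs : s ∈ Job.cl σ) (ha : t.a ∈ Sys.inf (F.Θ s).2) :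
    s (.inr ()) = 1 := by
  have e : tpp F.T (s (.inr ())) = 1 := (update_self ..).symm.trans ha
  have h0 : 0 ≤ swp F.T (s (.inr ())) := Real.smoothTransition.nonneg _
  have h1 : swp F.T (s (.inr ())) ≤ 1 := Real.smoothTransition.le_one _
  refine (hs.2 _).2.antisymm (by_contra fun k => ?_)
  rw [tpp] at e
  have := h.T.2.2
  rcases le_total (s (.inr ())) F.T with a | a <;> nlinarith

theorem fc_of {τ σ : Finset S.A} (e : τ ⊆ σ) (hs : s ∈ Job.cl (cel τ none)) (u : s (.inr ()) = 1) :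
    Pr.Fc σ s := by
  refine ⟨⟨?_, hs.2⟩, u⟩
  rintro (a | a) b k
  · refine hs.1 _ b ?_
    simp only [cel, Sum.elim_inl] at k ⊢
    split_ifs at k with k'
    rwa [if_neg fun a => k' (e a)]
  · cases k

theorem hasL {τ} (h : (F.JL c i m).HasT s τ) :
    (F.J c d i m k).HasT s (τ.mp (Pr.eL m k) Fin.elim0) := by
  obtain ⟨_ | w | _, rfl, h1, h2, h3⟩ := h
  exacts [(h1 rfl).elim, ⟨.inr (.inl w), rfl, h1, h2, h3⟩, (h1 rfl).elim]

theorem hasR {τ} (h : (F.JR c i k).HasT s τ) :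
    (F.J c d i m k).HasT s (τ.mp Fin.elim0 (Pr.eR k)) := by
  obtain ⟨_ | _ | w | _, rfl, h1, h2, h3⟩ := h
  exacts [(h1 rfl).elim, (h1 rfl).elim, ⟨.inr (.inr (.inl w)), rfl, h1, h2, h3⟩, (h1 rfl).elim]

theorem richDR {π π' g l} (h : RichX (F.JR c i k) s π π') (hg : SgIn S.X.I (S.M.sys.U π') g)
    (hl : S.nb l ⊆ S.M.sys.U π) : RichD (F.J c d i m k) s π l (.s g []) := fun τ hτ => by
  obtain ⟨τ', e, h'⟩ : ∃ τ' : Tc S.X.M (lam ⊕ lam) 0, τ = ⟨τ'.m, τ'.n, τ'.w, τ'.ξ.mp Fin.elim0⟩ ∧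
      XiX (S.M.sys.U π) (.s g []) τ'.ξ := by
    obtain ⟨a, b, w, _ | ξ | ⟨_, s, u, v, l⟩⟩ := τ
    exacts [⟨⟨a, b, w, .one⟩, rfl, hτ⟩, ⟨⟨a, b, w, .aw ξ⟩, rfl, hτ⟩,
      ⟨⟨a, b, w, .qj (.s g []) s u v l⟩, hτ.1 ▸ rfl, rfl, hτ.2⟩]
  obtain ⟨_ | _ | w | _, rfl, h1, h2, h3⟩ := h.cut g hg l hl τ' h'
  exacts [(h1 rfl).elim, (h1 rfl).elim, ⟨.inr (.inr (.inl w)), e.symm, h1, h2, h3⟩, (h1 rfl).elim]

/-- **the dead pairs** -/
theorem kills (h : F.OK c d T) (km : ↑k ≤ m) (u : s (.inr ()) = 1) {q : F.Wi →₀ ℝ} {ρ : Fin n}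
    (hq : q (F.wD ρ) ≠ 0) (hρ : ↑k ≤ (ρ : ℕ)) :
    Kills (F.J c d i m k) q s ρ (Fin.natAdd _ ρ) := by
  refine ⟨_, hq, (if_pos hρ).trans ?_, rfl, ?_⟩
  · have := h.T.2.2
    rw [u]
    exact Real.smoothTransition.one_of_one_le ((one_le_div (by linarith)).2 (by linarith))
  rintro (w | w | w | w | w) h1 h2
  · exact (h2 (h.off i m k w s u).1).elim
  · rw [show (F.J c d i m k).tw (.inr (.inl w)) = ((F.tL m).tw w).mp (Pr.eL m k) Fin.elim0 from rfl]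
    rcases (F.tL m).tw w with _ | _ | _ | _ | _ | i | i
    all_goals first | exact i.elim0 | exact ⟨nofun, nofun⟩
  · rw [show (F.J c d i m k).tw (.inr (.inr (.inl w))) =
      ((F.tR i k).tw w).mp Fin.elim0 (Pr.eR k) from rfl]
    rcases (F.tR i k).tw w with _ | _ | _ | _ | _ | j | ⟨_, _, j⟩
    iterate 5 exact ⟨nofun, nofun⟩
    swap
    · exact j.elim0
    refine ⟨fun a g e => ?_, nofun⟩
    have := congrArg Fin.val (Tm.cut.inj e).1
    simp [Pr.eR] at this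
    omega
  · refine ⟨nofun, fun _ _ _ e => ?_⟩
    cases e
    have : w ≠ ρ := fun e => h1 (e ▸ rfl)
    exact ⟨this, fun e => this (Fin.natAdd_injective _ _ e)⟩
  · exact (h2 rfl).elim

/-- some live coordinate does not vanish -/
theorem live (h : F.OK c d T) (km : ↑k ≤ m) {e σ q} {y : (F.J c d i m k).Obc e} (hy : Sol σ q y)
    (u : y.s (.inr ()) = 1) (hq : ∀ ρ, q (F.wD ρ) ≠ 0) : ∃ j, y.x.z (Pr.eL m k j) ≠ 0 := by
  by_contra! a
  have : y.x.z = 0 := by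
    ext j
    by_cases b : (j : ℕ) < m + 1
    · exact a ⟨j, b⟩
    · have := j.2
      have := (kills (i := i) h km u (hq ⟨j - (m - k + 1), by omega⟩) (by simp; omega)).zero (hy.sol.S _)
      rwa [show Fin.natAdd _ _ = j from Fin.ext (by simp; omega)] at this
  simpa [this] using hy.sol.z

variable (Lm) in
/-- **LEAF DN-W** -/
theorem dnW : DnW Lm := by
  intro _ y₀ P S z R Z T h0 h1 Sm he δ Adm q y ha hq hy ht hF hf b E H x ψ _ hb Rp
  have hc : z.c Z.i ≠ 0 := fun e => h1.c (by simp [e])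
  have u := u_one h1.F hy.cell (hy.inf.ge h1.a)
  have fc := fc_of h1.sub hy.cell u
  have sd := fun b => ((Sm.sdP he).1 b).ge rfl
  have aL : z.t.a ∉ S.ls := (h0.cn.ok.fz _ h0.t.fz.1).2.1
  have nl : ∀ l ∈ S.ls, hp z.t.a true l ≠ some false := fun l _ => by
    unfold hp; split_ifs <;> simp
  have un : ∀ x, x ∈ z.D.W.un Z.e Z.pW.P := fun x => by
    obtain ⟨π, k1, k2⟩ := Cyl58.exists_pc z.D.W.toCaps x
    obtain ⟨b, π', k3, rfl⟩ := (Sm.cov π k1).resolve_right fun ⟨l, k, _⟩ =>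
      aL ((he.le k : l.1 = _) ▸ l.2)
    have k4 : z.t.Pc b (pe Z.e) π' := by simpa [Z1.Rg, Fk18.Rg] using k3
    have := ((Sm.sdP he).1 b).le ⟨k1, (Sm.pc b π' k3).2.trans k4.2⟩
    exact mem_un.2 ⟨_, by cases b; exacts [.inl this, .inr this], k2⟩
  have So : SolOn Z.pW Z.ce q y := ⟨hy.cell, hy.inf, hy.sol.toAdm, fun x k => (k (un x)).elim,
    fun x _ => hy.sol.D x, fun x _ => hy.sol.C x, hy.sol.S,
    fun l _ => hy.cut l ((hy.H_eq ht.1).trans (Sm.sdP he).2 ▸ trivial),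
    fun a b k _ => hy.lim a b k, fun a k b _ => hy.crit a k b, hy.int.integrableOn⟩
  have tf : ∀ π ∈ Z.pW.P, y.TF π := by rintro _ (rfl | rfl) <;> exact hF _
  have fre : Fre Z.pW y := fun π k => .inr (.inl (tf π k))
  have hI : Job.In Z.pW y := ⟨tf, fun _ a b => (b a).elim⟩
  obtain ⟨g, g1, g2, g3⟩ := exists_sg H.toCS So Rp hb (π := hp z.t.a true) (.inr rfl) hf
  have rx := ((h1.F.richR _ _ z.k _ h1.c fc Z.e hy.inf _ (sd true)).2 nl).2 _ (sd true) nl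
  refine onto_C H.toCS H.g So fre Rp trivial hb hI (h1.F.J _ hc _ _).2.nb
    (onto_K H.toCS H.g So fre Rp trivial hb hI ha rfl ?_ fun ρ => ?_) ?_ fun _ a b => (b a).elim
  · rintro _ (rfl | rfl)
    · obtain ⟨j, hj⟩ := live h1.F h0.km hy u hq
      obtain ⟨_, ζ, e, -⟩ := Rp.e
      refine ⟨.z (Pr.eL _ _ j), fun k => hj ?_, richP_mp
        ((h1.F.richL _ _ z.m _ h1.c fc Z.e hy.inf _ (sd false)).p j) fun _ => hasL⟩
      have : x.cfg.z _ = 0 := k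
      simpa [e.z] using this
    · exact ⟨.s g [], g3, richP_mp (rx.p g g1) fun _ => hasR⟩
  · refine (lt_or_ge (ρ : ℕ) z.k).imp (fun k => ⟨g, g2, fun w => ?_⟩)
      fun k => ⟨_, kills h1.F h0.km u (hq ρ) k⟩
    exact hasR (rx.row g g1 ⟨ρ, k⟩ w)
  · rintro _ (rfl | rfl) l - hl
    · obtain ⟨w, -, hw⟩ := (S.M.sys.w l).ne false
      exact ((S.M.sys.w l.1).dj.ne_of_mem
        (Fex7.left_out h0.p.y h0.t h0.cn.ok l.2 ((sd false).2 (hl hw))) hw rfl).elim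
    · exact ⟨_, g3, richDR rx g1 hl⟩

end prism

end Crest.Agent.X212.Kit16
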