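import Crest.Agent.X212.Kit16.Sb2
import Crest.Agent.X212.Klp2.Gw
import Crest.Agent.X212.Sm10.L2e
import Crest.Agent.X212.Sw21.SbA
import Crest.Agent.X212.Wl34.Wl

/-!
# Row 212, SB GLU-1+2 (helper16): the plug of `Sb84.Gl2Stmt`
-/

set_option autoImplicit false
noncomputable section

namespace Crest.Agent.X212.Kit16.Sb
open An M Nd18 Rf65 Sb84

variable {κ lam : Type} [Fintype κ] [Fintype lam] [DecidableEq lam] (Lm : G75.LM κ lam)

/-- **GLU-1+2** from the weighted gluing estimate -/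
theorem gl2Stmt (hG : GlwStmt κ (lam ⊕ lam)) (ly : LyStmt Lm) : Gl2Stmt Lm :=
  gl2 Lm (fun _ D i _ _ _ _ _ _ _ _ _ _ _ two ht ok inn pd bd ad mtc _ hU red int hγ =>
      Klp2.Gw.gl2w hG D i two ht ok inn pd bd ad mtc hU.symm red int hγ)
    (fun _ _ _ _ _ _ J _ _ => Sw21.Sb.red J) (fun _ _ _ _ _ _ J _ _ => Sm10.L2.l2J J) ly
    fun _ _ _ _ _ _ J _ a => have := J.conn_xs a; Wl34.wl _

end Crest.Agent.X212.Kit16.Sb
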