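import Crest.Agent.X212.Lw78.EnD
import Crest.Agent.X212.One97.Ext

/-!
# Row 212, EN18-SL (helper16): connections with a parallel line have much curvature on long windows
-/

set_option autoImplicit false
set_option linter.unusedSectionVars false
noncomputable section
open scoped Manifold ContDiff Topology InnerProductSpace
open Function Filter Set MeasureTheory

namespace Crest.Agent.X212.Kit16.Sl
open An Wz78 Pj41 Cyf70 Nd18 Tmp64 Dgr80
open Mp86 (NK)

variable {E : Type} [NormedAddCommGroup E] [NormedSpace ℝ E] [FiniteDimensional ℝ E]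
  [MeasurableSpace E] [BorelSpace E]
  {HM : Type} [TopologicalSpace HM] {I : ModelWithCorners ℝ E HM} [I.Boundaryless]
  {Y : Type} [TopologicalSpace Y] [ChartedSpace HM Y] [IsManifold I ∞ Y] [T2Space Y]
  [MeasurableSpace Y] [BorelSpace Y] [SecondCountableTopology Y] [CompactSpace Y]
  {κ : Type} [Fintype κ] {lam : Type} [Fintype lam] {D : YD I Y κ lam}

theorem curv_frz {V : Type} [NormedAddCommGroup V] [NormedSpace ℝ V] {F : Fr I Y κ} {t : ℝ}
    {W : Option κ → Y × ℝ → V →L[ℝ] V} {x : Y × ℝ} (h : ∀ a, FSm (IC I) (W a) (x.1, t))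
    (a b : Option κ) :
    curv (IC I) (cyl F).e (cyl F).c (fun a x => sw (fun _ => t) a x.2 • W a (x.1, t)) a b x =
      (sw (fun _ => t) a 0 * sw (fun _ => t) b 0) • curv (IC I) (cyl F).e (cyl F).c W a b (x.1, t) := by
  have k := fun a b => D_sq F.toPre (θ := fun _ => t) contDiff_const (x := x) (h b) a
  simp only [Pre.D_def, Tmp64.sq] at k
  cases a <;> cases b <;> simp [curv, sw, cyl, cc, k]

theorem sw_le (t : ℝ) (a : Option κ) : |sw (fun _ => t) a 0| ≤ 1 := by cases a <;> simp [sw]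

variable {E' : Type} [NormedAddCommGroup E'] [NormedSpace ℝ E'] [FiniteDimensional ℝ E']
  [MeasurableSpace E'] [BorelSpace E']
  {H' : Type} [TopologicalSpace H'] {J : ModelWithCorners ℝ E' H'} [J.Boundaryless]
  {M : Type} [TopologicalSpace M] [ChartedSpace H' M] [IsManifold J ∞ M] [T2Space M]
  [MeasurableSpace M] [BorelSpace M] [SecondCountableTopology M]
  {B : Base M (Option κ) lam} {G : Geo J M (Option κ) lam}

/-- the frozen slice of a connection with a parallel line -/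
theorem slice (K : Nk D B G) {c : Cfg M (Option κ) lam 0} (A : c.Adm B G) {O : Set M}
    (hO : IsOpen O) (L : Lin G.F c O) {t : ℝ} (ht : t ∈ K.J) (sub : ∀ y, K.ψ (y, t) ∈ O) :
    ∃ β : YC Y κ lam, D.Adm β ∧ D.Ln β ∧ ∀ y, ‖(cy β).m.Fg D.Z (cy β).W (y, 0)‖ ^ 2 ≤
      ‖c.m.Fg G.F c.W (K.ψ (y, t))‖ ^ 2 := by
  obtain ⟨π, sπ, R⟩ := L
  have m : ∀ y, (y, t) ∈ K.ψ.source := fun y => K.mem_src.2 ht
  have y := One97.yd_cy D
  have a0 := One97.admOn_pb K isOpen_univ (admOn_univ.2 A)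
  have a1 : (sqC (fun _ => t) (K.pb c)).Adm D.B D.G := y.adm_sq_of_band (J := {t}) contDiff_const
    (fun _ => rfl) (a0.mono fun x hx => ⟨K.mem_src.2 (hx.2 ▸ ht), trivial⟩)
  let β : YC Y κ lam := pb (fun y => (y, 0)) (sqC (fun _ => t) (K.pb c))
  have eW : (cy β).W = (sqC (fun _ => t) (K.pb c)).W := funext fun b => funext fun x => by
    cases b
    exacts [congrArg (· • _) (by simp [sw]), rfl]
  have e : cy β = sqC (fun _ => t) (K.pb c) := congrArg (fun W => (⟨(cy β).m, W, (cy β).Φ, (cy β).z⟩ :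
    Cfg _ _ _ 0)) eW
  have hβ : D.Adm β := ⟨e ▸ a1, fun z => (congrArg (· • _) (by simp [sw])).trans (zero_smul ℝ _)⟩
  have s1 : ∀ y, FSm (IC I) (fun x => π (K.ψ x)) (y, t) := fun y =>
    K.rel.sm (m y) (sπ.contMDiffAt (hO.mem_nhds (sub y)))
  refine ⟨β, hβ, ⟨fun x => π (K.ψ (x.1, t)), fun x _ => (fsm_sq (θ := fun _ => t) contDiff_const
    (s1 x.1)).contMDiffWithinAt, fun x _ => ?_⟩, fun z => ?_⟩
  · obtain ⟨r1, r2, r3, r4, r5⟩ := R _ (sub x.1)
    refine ⟨r1, r2, r3, r4, fun a => ?_⟩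
    have h1 := K.rel.D (u := fun x => π (K.ψ x)) (m x.1) a (.of_forall fun _ => rfl)
    have h2 := y.D_sq (θ := fun _ => t) contDiff_const (x := x) (s1 x.1) a
    have key : ∀ (s : ℝ) (d w p : CL c.m.A c.m.A), d + (w * p - p * w) = 0 →
        s • d + (s • w * p - p * s • w) = 0 := fun s d w p k => by
      rw [smul_mul_assoc, mul_smul_comm, ← smul_sub, ← smul_add, k, smul_zero]
    have h4 : (cy β).m.adW (cy β).W a x =
        sw (fun _ => t) a x.2 • c.m.adW c.W a (K.ψ (x.1, t)) := by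
      rw [eW]; exact map_smul adcL _ ((K.pb c).W a (x.1, t))
    rw [h4]
    exact (congrArg (fun d : CL c.m.A c.m.A => d + (_ : CL c.m.A c.m.A))
      (h2.trans (congrArg _ h1))).trans (key _ _ _ _ (r5 a))
  · rw [← K.rel.Fg (m z) c.W, PiLp.norm_sq_eq_of_L2, PiLp.norm_sq_eq_of_L2]
    refine Finset.sum_le_sum fun s _ => pow_le_pow_left₀ (norm_nonneg _) ?_ 2
    have h2 : (cy β).m.Fg D.Z (cy β).W (z, 0) s = (sw (fun _ => t) s.1 0 * sw (fun _ => t) s.2 0) •
        (cmM K.ψ c.m).Fg D.Z (fun a x => c.W a (K.ψ x)) (z, t) s := by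
      rw [eW]
      simp only [Md.Fg, ← map_smul]
      exact congrArg _ (congrArg _ (curv_frz (W := (K.pb c).W)
        (fun a => a0.conn.sm a _ ⟨m z, trivial⟩) s.1 s.2))
    have key : ∀ v : c.m.A, ‖(sw (fun _ => t) s.1 0 * sw (fun _ => t) s.2 0) • v‖ ≤ ‖v‖ := fun v => by
      rw [norm_smul, Real.norm_eq_abs, abs_mul]
      exact mul_le_of_le_one_left (norm_nonneg _)
        (mul_le_one₀ (sw_le t _) (abs_nonneg _) (sw_le t _))
    exact (congrArg norm h2).trans_le (key _)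

/-- **SL** -/
theorem sl : Lw78.En.SlStmt I Y κ lam := by
  intro D c₀ c0 h S X c O a a' A hO sub L hS
  have θ0 : ∀ s, 0 ≤ θc a a' s := fun _ => ct_mem.1
  have n0 : ∀ x, 0 ≤ θc a a' (X.K.τ x) * ‖c.m.Fg X.G.F c.W x‖ ^ 2 := fun x =>
    mul_nonneg (θ0 _) (sq_nonneg _)
  have c1 : Continuous (c.m.Fg X.G.F c.W) := (PiLp.continuous_toLp 2 _).comp
    (continuous_pi fun s => (sm_Fg X.hG A.conn (Std94.sm_pg X.hB A.ok) s).continuous)
  have s1 : Sm X.I fun x => ‖c.m.Fg X.G.F c.W x‖ ^ 2 := by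
    simp only [← real_inner_self_eq_norm_sq]
    exact contMDiff_finsetSum fun s _ => sm_inner (sm_Fg X.hG A.conn (Std94.sm_pg X.hB A.ok) s)
      (sm_Fg X.hG A.conn (Std94.sm_pg X.hB A.ok) s)
  have T := (hS.ts (I := X.I) (g := θc a a') contDiff_ct (d := 3) (by norm_num) (d' := 0)
    (by norm_num) fun _ => ct_zero).mul s1
  have i := T.int X.G.F
  have z : ∀ x ∉ X.K.ψ.target, θc a a' (X.K.τ x) * ‖c.m.Fg X.G.F c.W x‖ ^ 2 = 0 := fun x hx =>
    T.zero (Nka63.O_zero X.K ▸ hx)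
  have e : Icc (a + 4) (a' - 4) ⊆ Dp (some a) (some a') 4 := fun s hs =>
    ⟨fun _ k => Option.some.inj k ▸ hs.1, fun _ k => Option.some.inj k ▸ hs.2⟩
  have e' : Icc (a + 4) (a' - 4) ⊆ X.K.J := (e.trans hS.dp).trans (Dp_sub (by norm_num))
  have j := Nka63.integrableOn_slice X.K i z
  rw [Nka63.integral_neck X.K i z]
  refine le_trans ?_ (setIntegral_mono_set j (.of_forall fun t => integral_nonneg fun y => n0 _)
    e'.eventuallyLE)
  refine le_trans ?_ (setIntegral_ge_of_const_le_real (c := c₀) measurableSet_Icc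
    measure_Icc_lt_top.ne (fun t ht => ?_) (j.mono_set e'))
  · rw [Real.volume_real_Icc]
    exact mul_le_mul_of_nonneg_left ((le_max_left _ _).trans_eq' (by ring)) c0
  have m : ∀ y : Y, (y, t) ∈ X.K.ψ.source := fun y => X.K.mem_src.2 (e' ht)
  obtain ⟨β, b1, b2, b3⟩ := slice X.K A hO L (e' ht) fun y => sub (X.K.ψ.map_source (m y))
  have k : ∀ y, θc a a' (X.K.τ (X.K.ψ (y, t))) = 1 := fun y => by
    have := X.K.tm_ψ _ (m y)
    rw [X.K.τ_eq (by rw [Nk.dp, mem_preimage, this]; exact Dp_mono (by norm_num) (hS.dp (e ht))), this]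
    exact ct_one (by norm_num; exact e ht)
  simp only [k, one_mul]
  refine (h β b1 b2).trans (integral_mono_of_nonneg (.of_forall fun _ => sq_nonneg _)
    (Continuous.integrable_of_hasCompactSupport ?_ (HasCompactSupport.of_compactSpace _))
    (.of_forall b3))
  exact (c1.comp (X.K.ψ.continuousOn.comp_continuous (continuous_id.prodMk continuous_const)
    m)).norm.pow 2

end Crest.Agent.X212.Kit16.Sl
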