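import Crest.Agent.X212.Nd18.Fk

/-!
# Row 212, FACT (helper16): the strata of the faces on which `a` is broken
-/

set_option autoImplicit false
set_option linter.unusedSectionVars false
noncomputable section
open scoped Topology
open Set Function Filter

namespace Crest.Agent.X212.Kit16.Sta
open An M Fk18
open An.Job (Sol Str Obc En)

/-- the discrete data of a stratum -/
structure Dt (A h : Type) (E : Set ℝ) where
  F : Bool → Set (Reg A)
  I : Bool → Set (Reg A)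
  H : Set h
  t : Prop
  fx : Prop
  e : E

theorem Dt.finite {A h : Type} [Finite A] [Finite h] {E : Set ℝ} (hE : E.Finite) :
    Finite (Dt A h E) :=
  have := hE.to_subtype
  .of_injective (fun d => (d.F, d.I, d.H, d.t, d.fx, d.e))
    fun ⟨_, _, _, _, _, _⟩ ⟨_, _, _, _, _, _⟩ e => by simpa using e

/-- the parts: left, right, the whole face, irreducible pieces -/
abbrev Pj (A : Type) : Type := Option Bool ⊕ Bool × Reg A

variable {Wi : Type} {X : Mf 4} {A κ lam : Type} [Fintype A] [Fintype κ] [Fintype lam]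
  [DecidableEq lam] {M : Mark X A κ} {W : World M} {N : ML M lam} {Λ : Lns W N}
  {A' h : Type} [Fintype A'] [DecidableEq A'] [Fintype h] {r n : ℕ}
  {J : Job Wi Λ A' h r n} {c : M.Cl} {σ : Cel A'} {Adm : (Wi →₀ ℝ) → Prop} {En' : Set ℝ}
  (R : Bool → Set (Reg A)) (Fa : Prop) (s : Dt A h En')

/-- membership -/
structure Mem (y : J.Obc c) : Prop where
  F : ∀ b, y.F (R b) = s.F b
  I : ∀ b, y.I (R b) = s.I b
  H : y.H = s.H
  t : y.Tight ↔ s.t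
  fx : (∀ π ∈ y.F (R true), FixP y π) ↔ s.fx
  e : y.en = s.e

/-- the face strata -/
def Fc : Prop := Fa ∧ s.t ∧ (∀ b, s.F b = R b) ∧ ¬s.fx

/-- what is lost -/
def ws : Set (Option (Bool × Bool × Reg A)) :=
  {x | x.elim s.fx fun x => x.2.2 ∈ R x.2.1 ∧ x.2.2 ∉ s.F x.2.1 ∧ (x.1 = true → x.2.2 ∉ s.I x.2.1)}

/-- the parts of a stratum -/
def Vd : Pj A → Prop
  | .inl none => Fc R Fa s
  | .inl (some false) => s.F false ⊆ R false ∧ (s.F false).Nonempty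
  | .inl (some true) => s.F true ⊆ R true ∧ ¬s.fx
  | .inr x => x.2 ∈ R x.1 ∧ x.2 ∈ s.I x.1

/-- what a part sees -/
def Pd : Pj A → J.Obc c → Prop
  | .inl none => Fo R
  | .inl (some false) => fun y => y.F (R false) = s.F false
  | .inl (some true) => fun y => y.F (R true) = s.F true ∧ y.H = s.H ∧ ∃ π ∈ s.F true, ¬FixP y π
  | .inr x => fun y => ¬y.TF x.2 ∧ ¬y.TA x.2 ∧ y.H = s.H

/-- what regularity of a part gives -/
def Ok (okW : (Wi →₀ ℝ) → J.Obc c → Prop) (okL okR : J.Obc c → Prop)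
    (okI : Reg A → J.Obc c → Prop) (q : Wi →₀ ℝ) : Pj A → J.Obc c → Prop
  | .inl none => okW q
  | .inl (some false) => okL
  | .inl (some true) => okR
  | .inr x => okI x.2

variable {R Fa s} {y : J.Obc c}

variable (R) in
/-- the datum of an object -/
@[reducible] def dt (he : y.en ∈ En') : Dt A h En' :=
  ⟨fun b => y.F (R b), fun b => y.I (R b), y.H, y.Tight, ∀ π ∈ y.F (R true), FixP y π, _, he⟩

theorem Mem.of (he : y.en ∈ En') : Mem R (dt R he) y :=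
  ⟨fun _ => rfl, fun _ => rfl, rfl, .rfl, .rfl, rfl⟩

theorem Mem.sub (m : Mem R s y) (b : Bool) : s.F b ⊆ R b := m.F b ▸ sep_subset _ _

theorem Mem.fr (m : Mem R s y) (k : ¬s.fx) : ∃ π ∈ s.F true, ¬FixP y π :=
  by_contra fun a => k (m.fx.1 fun π hπ => by_contra fun a' => a ⟨π, m.F true ▸ hπ, a'⟩)

theorem Mem.pd (m : Mem R s y) : ∀ j, Vd R Fa s j → Pd R s j y
  | .inl none, k => ⟨m.t.2 k.2.1, fun b _ hπ => (((m.F b).trans (k.2.2.1 b)).ge hπ).2,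
      k.2.2.1 true ▸ m.fr k.2.2.2⟩
  | .inl (some false), _ => m.F false
  | .inl (some true), k => ⟨m.F true, m.H, m.fr k.2⟩
  | .inr x, k => have a := (m.I x.1).ge k.2; ⟨a.2.1, a.2.2, m.H⟩

theorem Mem.fc (m : Mem R s y) (a : Fa) (f : Fo R y) : Fc R Fa s :=
  ⟨a, m.t.1 f.t, fun b => (m.sub b).antisymm fun π k => (m.F b).le ⟨k, f.F b π k⟩, fun k =>
    let ⟨π, h1, h2⟩ := f.fr; h2 (m.fx.2 k π ⟨h1, f.F _ π h1⟩)⟩

theorem Fc.ws (f : Fc R Fa s) : ws R s = ∅ := eq_empty_of_forall_notMem fun x k => by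
  cases x
  exacts [f.2.2.2 k, k.2.1 ((f.2.2.1 _).ge k.1)]

variable {n₀ : ℤ} {FR : Kof81.Ty J} {okL okR : J.Obc c → Prop} {okI : Reg A → J.Obc c → Prop}
  {E : J.Obc c → Prop} (H : SH J c σ Adm n₀ FR R okL okR okI E)
include H

theorem exists_mo (j : Pj A) (k : Vd R (Kof81.Fa J n₀ σ c) s j) :
    ∃ D, MAx J c σ Adm D (Pd R s j) (fun _ => True) ∧ ∀ q y, Adm q → Sol σ q y → Pd R s j y →
      D.Reg q y → Ok (fun q y => E y → FR σ c q y) okL okR okI q j y := by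
  have w : ∀ {P ok : J.Obc c → Prop}, (∃ D, MAx J c σ Adm D P ok) →
      ∃ D, MAx J c σ Adm D P (fun _ => True) ∧ ∀ q y, Adm q → Sol σ q y → P y → D.Reg q y → ok y :=
    fun ⟨D, a⟩ => ⟨D, { a with ker := fun _ _ _ _ _ => trivial }, fun q y b e f => a.ker q y b ⟨e, f⟩⟩
  rcases j with (_ | _ | _) | x
  exacts [H.Wh k.1, w (H.L _ k.1 k.2), w (H.R' _ k.1 _), w (H.I _ _ k.1 _)]

/-- **the strata** -/
@[reducible] def stra (En' : Set ℝ) : J.Stra c where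
  S := Dt A h En'
  en s := s.e
  wt s := (ws R s).ncard
  mem := Mem R
  face := Fc R (Kof81.Fa J n₀ σ c)
  Jp s := {j // Vd R (Kof81.Fa J n₀ σ c) s j}
  Ic _ j := (exists_mo H j.1 j.2).choose.Ic
  P _ j := (exists_mo H j.1 j.2).choose.Pb
  rep {_ j} i := (exists_mo H j.1 j.2).choose.rep i

theorem reg {q : Wi →₀ ℝ} (ha : Adm q) (hy : Sol σ q y) (m : Mem R s y)
    (k : (stra H En').Reg s q y) :
    (Kof81.Fa J n₀ σ c ∧ Fo R y ∧ E y) ∧ (Fc R (Kof81.Fa J n₀ σ c) s → E y → FR σ c q y) :=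
  have a := fun j v => (exists_mo H j v).choose_spec.2 q y ha hy (m.pd j v) (k ⟨j, v⟩)
  ⟨H.kill q y ha hy (fun e => a (.inl (some false)) ⟨m.sub _, m.F _ ▸ e⟩)
    (fun ⟨π, h1, h2⟩ => a (.inl (some true)) ⟨m.sub _, fun e => h2 (m.fx.2 e π h1)⟩)
    fun b π e => a (.inr (b, π)) ⟨e.1, (m.I b).le e⟩, a (.inl none)⟩

theorem lim {α : Type} {𝒰 : Ultrafilter α} {q : α → Wi →₀ ℝ} {y : α → J.Obc c} {q₀ : Wi →₀ ℝ}
    {y₀ : J.Obc c} (he : y₀.en ∈ En') (e : Sol σ q₀ y₀)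
    (d : ∀ᶠ i in (𝒰 : Filter α), Sol σ (q i) (y i) ∧ Mem R s (y i)) (f : Str 𝒰 y y₀) :
    Mem R s y₀ ∨ ∃ s' : Dt A h En', (ws R s).ncard < (ws R s').ncard ∧ Mem R s' y₀ := by
  have hm : ∀ᶠ i in (𝒰 : Filter α), Mem R s (y i) := d.mono fun _ k => k.2
  have ex : ∀ {P : α → Prop} {Q : Prop}, (∀ᶠ i in (𝒰 : Filter α), P i) →
      (∀ i, Mem R s (y i) → P i → Q) → Q := fun h1 h2 =>
    let ⟨i, k⟩ := (hm.and h1).exists; h2 i k.1 k.2
  have hF : ∀ b, y₀.F (R b) ⊆ s.F b := fun b π k =>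
    ex (f.tf k.2) fun _ k1 k2 => (k1.F b).le ⟨k.1, k2⟩
  have hI : ∀ b, ∀ π ∈ R b, π ∉ s.F b → π ∉ s.I b → y₀.TA π := fun b π k0 k1 k2 =>
    H.lin α 𝒰 y y₀ π (H.pc b π k0) (e.ok H.ok H.mem) (d.mono fun i hi => ⟨hi.1.ok H.ok H.mem,
      by_contra fun k3 => k2 ((hi.2.I b).le ⟨k0, fun k4 => k1 ((hi.2.F b).le ⟨k0, k4⟩), k3⟩)⟩) f
  have hx : s.fx → ∀ π ∈ y₀.F (R true), FixP y₀ π := fun k π hπ =>
    H.fx H.ok σ H.mem α 𝒰 q y q₀ y₀ π (H.pc _ π hπ.1) e (d.mono fun i hi =>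
      ⟨hi.1, hi.2.fx.2 k π ((hi.2.F _).ge (hF _ hπ))⟩) f
  have m0 := Mem.of (R := R) he
  have l : ws R s ⊆ ws R (dt R he) := fun x k => by
    cases x
    exacts [hx k, ⟨k.1, fun a => k.2.1 (hF _ a), fun a b => b.2.2 (hI _ _ k.1 k.2.1 (k.2.2 a))⟩]
  refine l.eq_or_ssubset.imp (fun g => ?_) fun g => ⟨_, ncard_lt_ncard g, m0⟩
  obtain ⟨i, m1⟩ := hm.exists
  have e3 : ∀ b, y₀.F (R b) = s.F b := fun b => (hF b).antisymm fun π k => by_contra fun k' =>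
    (g.ge (show some (false, b, π) ∈ _ from ⟨m1.sub b k, k', nofun⟩)).2.1 k
  refine ⟨e3, fun b => Subset.antisymm (fun π k => by_contra fun k' =>
      k.2.2 (hI b π k.1 (fun a => k.2.1 ((e3 b).ge a).2) k')) fun π k => by_contra fun k' => ?_,
    ex f.dis fun _ k1 k2 => k2.1.symm.trans k1.H, ex f.tight fun _ k1 k2 => k2.symm.trans k1.t,
    ⟨fun k => g.ge (show none ∈ _ from k), hx⟩,
    tendsto_nhds_unique f.en (tendsto_const_nhds.congr' (hm.mono fun _ k => k.e.symm))⟩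
  have k1 := (m1.I b).ge k
  exact (g.ge (show some (true, b, π) ∈ _ from ⟨k1.1, fun a => k1.2.1 ((m1.F b).ge (hF b a)).2,
    fun _ => k'⟩)).2.2 rfl k

theorem ok : Kof81.StrOK J n₀ FR Adm σ c (stra H (J.En c σ Adm)) :=
  have mo := fun (s : Dt A h (J.En c σ Adm)) (j : {j // Vd R (Kof81.Fa J n₀ σ c) s j}) =>
    (exists_mo H j.1 j.2).choose_spec.1
  ⟨{  fin := Dt.finite H.fin
      finJ := fun _ => Subtype.finite
      ax := fun s j => (mo s j).ax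
      cover := fun q y a b _ => ⟨_, Mem.of (En' := J.En c σ Adm) ⟨q, y, a, b, rfl⟩⟩
      ntop := fun _ _ _ _ _ _ e => H.ne e.1
      en := fun _ _ _ _ _ e => e.e
      sol := fun s j i q y x a b e => (mo s j).sol i q y x a ⟨b, e.pd _ j.2⟩
      dens := fun s j q y a b e => (mo s j).dens q y a ⟨b, e.pd _ j.2⟩
      kill := fun _ _ _ f a b e k => have g := (reg H a b e k).1; f (e.fc g.1 g.2.1)
      face := fun _ _ _ f _ _ e => ⟨f.1, e.t.2 f.2.1⟩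
      fine := fun s q₀ a α 𝒰 q y y₀ b d e f => (lim H (En' := J.En c σ Adm) ⟨q₀, y₀, a, e, rfl⟩ e
        (d.mono fun _ k => k.2) f).imp (fun m => ⟨m, fun j => (mo s j).near q₀ a α 𝒰 q y y₀ b
          (d.mono fun _ k => ⟨k.1, k.2.1, k.2.2.pd _ j.2⟩) ⟨e, m.pd _ j.2⟩ f⟩)
        fun ⟨s', k, m⟩ => ⟨s', k, m, fun k' => by simp [Fc.ws k'] at k⟩ },
    fun _ _ _ f a b e => have g : Fo R _ := e.pd (.inl none) f
      ⟨let ⟨π, h1, _⟩ := g.fr; let ⟨z, _, hz⟩ := g.F _ π h1; ⟨z, hz⟩, H.unc f.1,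
        fun k => have g := reg H a b e k; g.2 f g.1.2.2⟩⟩

omit H in
variable (J c σ Adm) in
/-- **LEAF A-STR** -/
theorem stA : StA J c σ Adm := fun _ _ _ _ _ _ _ H => ⟨_, ok H⟩

end Crest.Agent.X212.Kit16.Sta
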