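import Crest.Agent.X212.Kit16.Md1
import Crest.Agent.X212.Nd18.Gj
import Crest.Agent.X212.Num57.Nb

/-!
# Row 212, KIT (helper16): LEAF MDL, the models of the cells of a job
-/

set_option autoImplicit false
set_option linter.unusedSectionVars false
noncomputable section
open scoped Manifold ContDiff Topology InnerProductSpace
open MeasureTheory Set Function Filter Module

namespace Crest.Agent.X212.Kit16
open An An.Job M Prm93 Eqv71 Sob92 Mod61 Nd18 Wrd81 Cnt93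

section
variable {Wi : Type} {X : Mf 4} {A κ lam : Type} [Fintype A] [Fintype κ] [Fintype lam]
  [DecidableEq lam] {M : Mark X A κ} {W : World M} {N : ML M lam} {Λ : Lns W N}
  {A' h : Type} [Fintype A'] [DecidableEq A'] [Fintype h] {r n : ℕ}
  {J : Job Wi Λ A' h r n} {σ : Cel A'} {s : A' → ℝ} {q : Wi →₀ ℝ}
  {hJ : J.OK} {n₀ : ℤ}

open Classical in
/-- a cell of the job -/
def cel0 (hne : J.𝒦.Nonempty) (σ : Cel A') : J.𝒦 := if k : σ ∈ J.𝒦 then ⟨σ, k⟩ else ⟨_, hne.some_mem⟩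

variable (hJ) in
/-- **the models** -/
@[reducible] def mdlD (hne : J.𝒦.Nonempty) (n₀ : ℤ) : J.Mdl where
  top := top0
  Q σ := QQ hJ n₀ (cel0 hne σ)
  ob := ob
  tc σ := tcF (cel0 hne σ)
  inc σ _ := inc (cel0 hne σ)
  n₀ := n₀

variable {hne : J.𝒦.Nonempty}

theorem cel0_eq (hσ : σ ∈ J.𝒦) : (cel0 hne σ).1 = σ := by rw [cel0, dif_pos hσ]

theorem pa_eq (x : (QQ hJ n₀ (cel0 hne σ)).X) (a : A') : (mdlD hJ hne n₀).gx.pa x a = (ob x).s a := rfl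

theorem pb_eq (x : (QQ hJ n₀ (cel0 hne σ)).X) (b : A' × Bool) :
    (mdlD hJ hne n₀).gx.pb x b = if b.2 then 1 - (ob x).s b.1 else (ob x).s b.1 := rfl

theorem sp_ob (hσ : σ ∈ J.𝒦) (x : (QQ hJ n₀ (cel0 hne σ)).X) : (ob x).s ∈ sp σ :=
  (congrArg sp (cel0_eq (hne := hne) hσ)).le (xt_sp _)

theorem mem_M (hσ : σ ∈ J.𝒦) {x : (QQ hJ n₀ (cel0 hne σ)).X} : x ∈ (mdlD hJ hne n₀).gx.M σ q ↔
    (QQ hJ n₀ (cel0 hne σ)).Sol q x ∧ (ob x).s ∈ cl σ := by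
  have k : ∀ a, (J.hd a).isSome → (ob x).s a < 1 := x.2.1.ht
  refine and_congr_right fun _ => ⟨fun ⟨h1, _⟩ => ⟨sp_ob hσ x, fun a => ?_⟩, fun h1 =>
    ⟨fun b _ => ?_, fun a ha => k a (mem_wa.1 ha).2⟩⟩
  · rcases e : σ a with _ | b
    · refine ⟨h1 (a, false) (mem_wb.2 ⟨e, by simp⟩), ?_⟩
      rcases e' : J.hd a with _ | _
      · exact sub_nonneg.1 (h1 (a, true) (mem_wb.2 ⟨e, by simp [e']⟩))
      · exact (k a (by simp [e'])).le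
    · rw [sp_ob hσ x a b e]
      cases b <;> simp [b01]
  · rw [pb_eq]
    split_ifs
    exacts [sub_nonneg.2 (h1.2 _).2, (h1.2 _).1]

variable (hr : r ≠ 0) (hI : ∀ σ ∈ J.𝒦, ∀ s, J.Ov σ M.c0 s →
  6 * J.k + tp0 J s + 2 * r - 2 * n - 2 - 2 * Fintype.card h = n₀) (hσ : σ ∈ J.𝒦)
include hr hI hσ

theorem sol_M {x : (QQ hJ n₀ (cel0 hne σ)).X} (k : x ∈ (mdlD hJ hne n₀).gx.M σ q) :
    Sol σ q (ob x) ∧ top0 (ob x) :=
  sol_ob hr (hI _ (cel0 hne σ).2) ((mem_M hσ).1 k).1 ((mem_M hσ).1 k).2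

theorem M_of {y : J.Obc M.c0} (k : Sol σ q y) (t : top0 y) {x : (QQ hJ n₀ (cel0 hne σ)).X}
    (e : Iso y (ob x)) : x ∈ (mdlD hJ hne n₀).gx.M σ q :=
  (mem_M hσ).2 ⟨sol_of hr (hI _ (cel0 hne σ).2) ((cel0_eq (hne := hne) hσ).symm ▸ k) t e, e.1 ▸ k.cell⟩

theorem exists_pt {y : J.Obc M.c0} (k : Sol σ q y) (t : top0 y) :
    ∃ x : (QQ hJ n₀ (cel0 hne σ)).X, x ∈ (mdlD hJ hne n₀).gx.M σ q ∧ Iso y (ob x) := by
  have k' : Sol (cel0 hne σ).1 q y := (cel0_eq (hne := hne) hσ).symm ▸ k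
  have a := ao_of (solOn hJ (cel0 hne σ).2 k' t).1
  obtain ⟨A, hA, x, -, -, -, -, -, e⟩ := (pm hJ (cel0 hne σ).2).exists_rp a (rs_mem hJ (cel0 hne σ).2 a.ov)
    fun b _ => (congrFun (xt_rs k'.cell.1) b).symm
  let x' : (QQ hJ n₀ (cel0 hne σ)).X := ⟨⟨⟨y.x.m, A⟩, a.adm.ok, hA⟩, x, fun i => y.ψ i⟩
  have e' : Iso y (ob x') := (iso_iff k'.cell.1).2 e
  exact ⟨_, M_of hr hI hσ k t e', e'⟩

theorem cx (Adm : (Wi →₀ ℝ) → Prop) : (mdlD hJ hne n₀).gx.Ax Adm σ := by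
  have e0 := cel0_eq (hne := hne) hσ
  have e1 : ∀ b ∈ J.wb σ, (cel0 hne (Job.fc σ b)).1 = Job.fc σ b := fun b hb => cel0_eq (hJ.down σ hσ b hb)
  have k : ∀ b ∈ J.wb σ, ∀ x : (QQ hJ n₀ (cel0 hne (Job.fc σ b))).X, ob (inc (cel0 hne σ) x) = ob x ∧
      (ob x).s b.1 = b01 b.2 := fun b hb x =>
    have := (sp_fc (mem_wb.1 hb).1).1 (sp_ob (hJ.down σ hσ b hb) x)
    ⟨ob_inc ((congrArg sp e0).ge this.1), this.2⟩
  have k0 : ∀ b : A' × Bool, ∀ t : ℝ, (if b.2 then 1 - t else t) = 0 ↔ t = b01 b.2 := fun b t => by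
    cases b.2 <;> simp [b01, sub_eq_zero, eq_comm (a := t)]
  refine ⟨ax_mono (ax_QQ (hJ := hJ)) _, fun a _ => inv_tc (hJ := hJ) id contDiff_id a, fun b _ =>
    inv_tc (hJ := hJ) (fun t => if b.2 then 1 - t else t) (by split_ifs <;> fun_prop) b.1, fun b hb => ?_,
    fun b hb x y _ _ => ?_, fun b hb q _ x hx => ?_, fun b hb x _ => ?_, fun b hb q _ y hy h0 => ?_,
    fun b hb q _ x _ hx => trv (by rw [e0, e1 b hb]) (e0.symm ▸ (mem_wb.1 hb).1) hx,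
    fun b hb a ha => ?_, fun b hb b' hb' ne x _ h0 => ?_⟩
  · change _ + (dim (cel0 hne _).1 : ℤ) + _ - _ = _ + (dim (cel0 hne _).1 : ℤ) + _ - _ - 1
    rw [e0, e1 b hb, ← dim_fc (mem_wb.1 hb).1]
    push_cast
    ring
  · exact (eqv_iff (hJ := hJ) hr).trans ((iff_of_eq (congrArg₂ Job.Iso (k b hb x).1 (k b hb y).1)).trans
      (eqv_iff (hJ := hJ) hr).symm)
  · obtain ⟨h1, h2⟩ := sol_M hr hI (hJ.down σ hσ b hb) hx
    exact M_of hr hI hσ { h1 with cell := ⟨((sp_fc (mem_wb.1 hb).1).1 h1.cell.1).1, h1.cell.2⟩ } h2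
      ((k b hb x).1.symm ▸ (ok_ob x).refl)
  · exact (k0 b _).2 ((congrArg (·.s b.1) (k b hb x).1).trans (k b hb x).2)
  · obtain ⟨h1, h2⟩ := sol_M hr hI hσ hy
    have h3 := (sp_fc (mem_wb.1 hb).1).2 ⟨h1.cell.1, (k0 b _).1 h0⟩
    have h4 : (ob y).s ∈ sp (cel0 hne (Job.fc σ b)).1 := (e1 b hb).symm ▸ h3
    exact ⟨inc _ y, M_of hr hI (hJ.down σ hσ b hb) { h1 with cell := ⟨h3, h1.cell.2⟩ } h2
      ((ob_inc h4).symm ▸ (ok_ob y).refl), inc_inc h4⟩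
  · by_cases e : a = b.1
    · refine .inr fun x _ => (congrArg (·.s a) (k b hb x).1).trans_le ?_
      have : b.2 = false := by
        simpa [← e, Option.isSome_iff_ne_none.1 (mem_wa.1 ha).2] using (mem_wb.1 hb).2
      rw [e, (k b hb x).2, this]
      simp [b01]
    · exact .inl ⟨mem_wa.2 ⟨(update_of_ne e _ _).trans (mem_wa.1 ha).1, (mem_wa.1 ha).2⟩,
        fun x _ => congrArg (·.s a) (k b hb x).1⟩
  · have h1 := (congrArg (·.s b'.1) (k b hb x).1).symm.trans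
      ((k0 b' ((ob (inc (cel0 hne σ) x)).s b'.1)).1 h0)
    by_cases e : b'.1 = b.1
    · rw [e, (k b hb x).2] at h1
      refine (ne (Prod.ext e ?_)).elim
      revert h1
      cases b.2 <;> cases b'.2 <;> simp [b01]
    · exact ⟨b', mem_wb.2 ⟨(update_of_ne e _ _).trans (mem_wb.1 hb').1, (mem_wb.1 hb').2⟩,
        (k0 b' _).2 h1⟩

/-- **LEAF MDL** -/
theorem ax (hR : J.Rich σ M.c0 {top A}) (Adm : (Wi →₀ ℝ) → Prop) : (mdlD hJ hne n₀).Ax Adm σ where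
  cx := cx hr hI hσ Adm
  n := by
    change _ + (dim (cel0 hne _).1 : ℤ) + _ - 2 * (Fintype.card (univ : Set h) : ℤ) = n₀ + _
    rw [cel0_eq hσ, Fintype.card_congr (Equiv.Set.univ h), add_sub_cancel_right]
  l0 _ k := k.1
  sol q _ x hx := sol_M hr hI hσ hx
  pt q _ y k t := let ⟨x, h1, h2⟩ := exists_pt hr hI hσ k t; ⟨x, h1, h2.symm (k.ok hJ hσ) (ok_ob x)⟩
  eqv q _ x _ x' _ := eqv_iff hr
  str q₀ _ α 𝒰 q u y₀ _ hu k t st := by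
    obtain ⟨x₀, h1, h2⟩ := exists_pt (hJ := hJ) (hne := hne) hr hI hσ k t
    have e0 := cel0_eq (hne := hne) hσ
    have a : ∀ {q y}, Sol σ q y → top0 y → Ao (cel0 hne σ).1 (p0 A h (cel0 hne σ).1) y := fun k t =>
      ao_of (solOn hJ (cel0 hne σ).2 (e0.symm ▸ k) t).1
    obtain ⟨v, ζ, h3, h4⟩ := st.lim
    have h5 := (pm hJ (cel0 hne σ).2).near (fun k => (hr k).elim) (hu.mono fun i k =>
      let k := sol_M hr hI hσ k.2; a k.1 k.2) (a k t) h1.1.1 ((iso_iff (e0.symm ▸ k.cell.1)).1 h2)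
      (t := fun i => (u i).2.1.t) (tendsto_pi_nhds.2 fun b => by
        have := tendsto_pi_nhds.1 st.s b.1
        rw [h2.1] at this
        simpa only [xt_none b.2] using this) (.of_forall fun _ _ _ => rfl)
      (by rw [un0]; exact h3) fun i _ => h4 i (by rw [k.H_eq t.1]; simp [unc, Sys.cores, Mark.c0])
    refine ⟨x₀, h1, (Prob.tendsto_near _).2 fun S hS => (h5 _ (Prob.tube_mem _ hS)).mono ?_⟩
    rintro i ⟨x, ⟨y, h6, h7⟩, h8, -⟩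
    exact ⟨y, h6, (QQ hJ n₀ (cel0 hne σ)).eqv.trans ((eqv_iff hr).2 ((iso_iff (xt_sp _)).2 h8)) h7⟩
  dens q _ x hx := by
    obtain ⟨h1, h2⟩ := sol_M hr hI hσ hx
    obtain ⟨h3, h4, h5⟩ := hR _ h1.cell h1.inf
    exact .inr ((pm hJ (cel0 hne σ).2).onto hx.1 (fun k => (hr k).elim) h3 h4
      (fun i _ => ⟨_, rfl, by simp, h5 _ rfl i (by simp)⟩) (fun _ e => let ⟨z, hz⟩ := h2.2
        ⟨z, by rw [e, pc0]; trivial, hz⟩) fun _ a b => (b a).elim)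

omit hσ in
/-- **LEAF MDL** -/
theorem mdl (hJ : J.OK) (hne : J.𝒦.Nonempty) (hR : ∀ σ ∈ J.𝒦, J.Rich σ M.c0 {top A}) :
    ∃ D : J.Mdl, D.top = top0 ∧ D.n₀ = n₀ ∧ (∀ Adm, ∀ σ ∈ J.𝒦, D.Ax Adm σ) ∧
      ∀ σ (x : (D.Q σ).X) a, D.gx.pa x a = (D.ob x).s a :=
  ⟨mdlD hJ hne n₀, rfl, rfl, fun Adm σ hσ => ax hr hI hσ (hR σ hσ) Adm, fun _ _ _ => rfl⟩

end

section gj
open G75 Ins26
variable {κ lam : Type} [Fintype κ] [Fintype lam] [DecidableEq lam] {Lm : LM κ lam}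
  {S : Scene Lm} {D : S.Dat} {i : S.L} {Wi : Type} {r n : ℕ}
  {J : Job Wi (D.Λ i) (S.A ⊕ Unit) S.ls r n} {a₀ : Option S.A} {j : ℕ} {n₀ : ℤ} {T : ℝ}

theorem tp0_eq (hJ : J.OK) {σ : Cel (S.A ⊕ Unit)} (hσ : σ ∈ J.𝒦) {s : S.A ⊕ Unit → ℝ}
    (hs : J.Ov σ S.M.c0 s) : tp0 J s = d0 S i := by
  have hp : ∀ a ∈ Sys.bd (top S.A), S.M.pin a := by simp
  obtain ⟨β, sg, l2, h1⟩ := Num57.exists_nb (c := S.M.c0) S.M.sys.piece_top hp i
  obtain ⟨β', sg', l2', h2, h3⟩ := Classical.epsilon_spec (p := fun x => ∃ β sg l2,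
    S.Nb i univ β sg l2 ∧ x = (l2 - sg) / 2 - 3 * β) ⟨_, β, sg, l2, by simpa using h1, rfl⟩
  obtain ⟨k1, k2, k3⟩ := Num57.nb_int (c := S.M.c0) S.M.sys.piece_top hp (D.Λ i) J.m (hJ.memO hσ hs)
    (β := β') (sg := sg') (l2 := l2') (by simpa using h2)
  have b := (D.Λ i).B_ok J.m S.M.c0
  have g := hJ.G_ok hσ hs
  have o := Num57.OK.of_base (D.W.Z S.M.c0).dim b g
  have i2 := Num57.int_sm (F := (J.G S.M.c0 s).F) (Idg99.sm_lad b g (D.W.Z S.M.c0).dim)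
  rw [Num57.lad99 b g] at i2
  rw [pc0, Measure.restrict_univ] at k1 k2 k3
  rw [d0, h3, ← k1, ← k2, ← k3, tp0, ← integral_const_mul, sub_div, ← integral_div, ← integral_div]
  exact ((integral_congr_ae (.of_forall fun z => by simp only [Pi.add_apply, Pi.sub_apply]; ring)).trans
    (integral_sub ((i2.div_const 2).sub (o.int_sgd.div_const 2))
      (((o.int_eud.add o.int_sgd).div_const 2).const_mul 3))).trans
    (congrArg (· - _) (integral_sub (i2.div_const 2) (o.int_sgd.div_const 2)))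

theorem sc_I (hJ : J.OK) (hr : r = j + 1 + n) (hk : J.k = kz S i j n₀) : ∀ σ ∈ J.𝒦, ∀ s,
    J.Ov σ S.M.c0 s → 6 * J.k + tp0 J s + 2 * r - 2 * n - 2 - 2 * Fintype.card S.ls = n₀ :=
  fun σ hσ s hs => by
    rw [tp0_eq hJ hσ hs, hk, kz, hr, Fintype.card_coe]
    push_cast
    ring

/-- **LEAF MDL** over a scene (fields `ok r k rich` of `GJ`, `GX`) -/
theorem ax_sc (hJ : J.OK) (hr : r = j + 1 + n) (hk : J.k = kz S i j n₀)
    (hR : ∀ σ' ∈ J.𝒦, ∀ s ∈ Job.cl σ', ∀ c : S.M.Cl, Sys.inf (J.Θ s).2 = c.1 → (∀ a ∈ a₀, a ∉ c.1) →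
      J.RichS s ∧ ∀ π, S.M.sys.Piece c.1 π → ((∀ l ∈ S.ls, π l ≠ some false) → J.RichT s π) ∧
        ∀ l, S.nb l ⊆ S.M.sys.U π → J.RichC s π l)
    (hne : J.𝒦.Nonempty) (Adm : (Wi →₀ ℝ) → Prop) : ∀ σ ∈ J.𝒦, (mdlD hJ hne n₀).Ax Adm σ :=
  fun σ hσ => ax (by omega) (sc_I hJ hr hk) hσ (fun s hs e =>
    have k := hR σ hσ s hs S.M.c0 e fun _ _ => id
    have k' := k.2 _ S.M.sys.piece_top
    ⟨fun _ e => e ▸ k'.1 fun _ _ => by simp [top], k.1, fun _ e l _ => e ▸ k'.2 l (by simp)⟩) Adm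

theorem gj_r (H : GJ J a₀ j n₀ T) : r ≠ 0 := by have := H.r; omega

theorem gj_I (H : GJ J a₀ j n₀ T) : ∀ σ ∈ J.𝒦, ∀ s, J.Ov σ S.M.c0 s →
    6 * J.k + tp0 J s + 2 * r - 2 * n - 2 - 2 * Fintype.card S.ls = n₀ := sc_I H.ok H.r H.k

/-- **LEAF MDL** for the generic class (`D := mdlD H.ok hne n₀`) -/
theorem ax_gj (H : GJ J a₀ j n₀ T) (hne : J.𝒦.Nonempty) (Adm : (Wi →₀ ℝ) → Prop) :
    ∀ σ ∈ J.𝒦, (mdlD H.ok hne n₀).Ax Adm σ := ax_sc H.ok H.r H.k H.rich hne Adm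

end gj

end Crest.Agent.X212.Kit16
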