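import Crest.Agent.X212.Kit16.Th
import Crest.Agent.X212.Mon62.NkJ
import Crest.Agent.X212.An.CutT
import Crest.Agent.X212.Wrd81.Loc
import Crest.Agent.X212.Num57.Pc

/-!
# Row 212, KIT (helper16): charts of parts of a job on closed manifolds
-/

set_option autoImplicit false
set_option linter.unusedSectionVars false
noncomputable section
open scoped Manifold ContDiff Topology InnerProductSpace
open MeasureTheory Set Function Filter Module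

namespace Crest.Agent.X212.Kit16
open An An.Job M Prm93 Eqv71 Sob92 Mod61 Nd18 Wrd81 Cnt93
open Cht98 (wFam wFam_ok)
open Nk89 (RNear rNear_of)

section gen
variable {E : Type} [NormedAddCommGroup E] [NormedSpace ℝ E] [FiniteDimensional ℝ E]
  [MeasurableSpace E] [BorelSpace E]
  {HM : Type} [TopologicalSpace HM] {I : ModelWithCorners ℝ E HM} [I.Boundaryless]
  {M : Type} [TopologicalSpace M] [ChartedSpace HM M] [IsManifold I ∞ M]
  [MeasurableSpace M] [T2Space M] [BorelSpace M] [SecondCountableTopology M]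
  {ι : Type} [Fintype ι] {lam : Type} [Fintype lam] {r : ℕ}
  {B : Base M ι lam} {G G' G'' : Geo I M ι lam} {O : Set M} {c c' c'' : Cfg M ι lam r}
  {u : M → CL c.m.V c'.m.V} {u' : M → CL c'.m.V c''.m.V} {ζ ζ' : Circle}

theorem eqOn_symm (g : LG B G B G' O id (fun x b a => B.P b a x) B.l) (a : Ad0 c B G)
    (a' : Ad0 c' B G') (e : EqOn B G.F O c c' u ζ) :
    EqOn B G'.F O c' c (fun x => trn (u x)) ζ⁻¹ := by
  have := ceq_symm g (inv_refl g.rot.opn) a a' e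
  have h1 : (fun y a b => B.P b a (id y)) = fun x b a => B.P b a x :=
    funext fun y => funext fun a => funext fun b => (g.hB.pr y).symm b a
  have h2 : (fun y => trn (B.l (id y))) = B.l := funext fun y => trn_of_sym (g.hB.lsym y)
  rwa [h1, h2] at this

theorem eqOn_trans (g : LG B G B G' O id (fun x b a => B.P b a x) B.l)
    (g' : LG B G' B G'' O id (fun x b a => B.P b a x) B.l) (a : Ad0 c B G) (a' : Ad0 c' B G')
    (a'' : Ad0 c'' B G'') (e : EqOn B G.F O c c' u ζ) (e' : EqOn B G'.F O c' c'' u' ζ') :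
    EqOn B G.F O c c'' (fun x => u' x ∘L u x) (ζ' * ζ) := by
  have := ceq_trans g g' (Set.mapsTo_id O) a a' a'' e e'
  have h1 : (fun x d a => ∑ b, B.P d b (id x) * B.P b a x) = fun x b a => B.P b a x :=
    funext fun y => funext fun a => funext fun b => (g.hB.pr y).idem a b
  have h2 : (fun x => B.l (id x) ∘L B.l x) = B.l := funext g.hB.lidem
  rwa [h1, h2] at this

theorem ix_lg [DecidableEq ι] {O' : Set M} (g : LG B G B G' O id (fun x b a => B.P b a x) B.l)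
    (hμ : G.F.μ.restrict O = G'.F.μ.restrict O) (hO' : IsOpen O') (h : O' ⊆ O)
    (e : ∀ x ∈ O, c'.m.kd B G'.F c'.W x = c.m.kd B G.F c.W x) :
    ix B G' O O' c' = ix B G O O' c := by
  have k := Num57.ro_of_lg g
  simp only [ix, ← hμ, ← Measure.restrict_congr_mono h hμ, Num57.eud99, Num57.sgd99,
    Num57.lad99 g.hB g.hG, Num57.lad99 g.hB g.hG']
  exact congrArg₂ (· + ·) (setIntegral_congr_fun g.rot.opn.measurableSet fun x hx => by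
      simp only [e x hx, show _ = _ from k.eud hx, show _ = _ from k.sgd hx, id, ← k.eud hx, ← k.sgd hx])
    (setIntegral_congr_fun hO'.measurableSet fun x hx => by
      simp only [e x (h hx), id, ← k.sgd (h hx), ← Num57.lg_lad g (h hx)])

end gen

variable {Wi : Type} {X : Mf 4} {A κ lam : Type} [Fintype A] [Fintype κ] [Fintype lam]
  [DecidableEq lam] {M : Mark X A κ} {W : World M} {N : ML M lam} {Λ : Lns W N}
  {A' h : Type} [Fintype A'] [DecidableEq A'] [Fintype h] {r n : ℕ}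
  {J : Job Wi Λ A' h r n} {c : M.Cl} {σ : Cel A'} {p : Prt A A' h}
  {T : Type} [NormedAddCommGroup T] [NormedSpace ℝ T] [FiniteDimensional ℝ T] [CompleteSpace T]
  {θ : T → A' → ℝ} {Q : Set T}

scoped instance (p : Prt A A' h) : Fintype p.H := Fintype.ofFinite _

scoped instance : DecidableEq (Option κ) := Classical.decEq _

theorem un_sub (hp : J.POK σ c p) : W.un c p.P' ⊆ W.un c p.P := biUnion_subset_biUnion_left hp.sub

variable (J c p θ Q)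

/-- the family of a part -/
abbrev fm : Mod61.Fam (W.Z c).I (W.Z c).M (Option κ) (lam ⊕ lam) T :=
  wFam Λ J.m c 0 (fun t => J.Θ (θ t)) Q (W.un c p.P) (W.un c p.P')

/-- the cuts of a part -/
abbrev cu : CTh (fm J c p θ Q) r Wi p.H :=
  CTh.ofT _ (fun i : p.H => J.cut c i) (fun i w => (J.tp c).tc (J.tc i w)) fun i w t => J.cc i w (θ t)

variable {c p θ Q} in
/-- the standing hypotheses -/
structure PM (σ : Cel A') (c : M.Cl) (p : Prt A A' h) (θ : T → A' → ℝ) (Q : Set T) : Prop where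
  ok : J.OK
  mem : σ ∈ J.𝒦
  pok : J.POK σ c p
  pin : ∀ a ∈ c.1, M.pin a
  opn : IsOpen Q
  sm : ContDiff ℝ ∞ θ
  ov : ∀ t ∈ Q, J.Ov σ c (θ t)

variable {J c p θ Q}

namespace PM
variable (H : PM J σ c p θ Q) [CompactSpace (W.Z c).M]
include H

theorem clo : IsClopen (W.un c p.P) := isClopen_un H.pok.pc

theorem fam : (fm J c p θ Q).OK :=
  wFam_ok Λ (fun _ _ => zero_lt_one) H.opn (H.ok.sm.comp H.sm).contDiffOn
    (fun t ht => H.ok.memO H.mem (H.ov t ht)) H.clo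
    (isClopen_un fun π k => H.pok.pc π (H.pok.sub k)) (un_sub H.pok)

theorem jl : Mon62.JL J σ (fm J c p θ Q) θ := ⟨H.ok, H.mem, rfl, fun _ _ => rfl, H.ov, H.sm.contDiffOn⟩

theorem ch : CH (fm J c p θ Q) (fun t => J.τ0 c (θ t)) fun w t => J.τw c (θ t) w where
  toOK := H.fam
  h4 := (W.Z c).dim
  sm0 _ := H.jl.sm0 H.fam H.pin
  sm w _ := H.jl.smw H.fam H.pin w
  nat0 t ht := H.ok.τ0_nat H.mem (H.ov t ht) H.clo
  nat w t ht := H.ok.τw_nat H.mem (H.ov t ht) H.clo w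

theorem ct (i : p.H) {s : A' → ℝ} (hs : J.Ov σ c s) : (J.cut c i).OK (J.B c) (J.G c s).F :=
  H.ok.ct σ H.mem s hs.1 c hs.2 i (unc_of H.pok.pc (H.pok.nb i i.2))

theorem csub (i : p.H) : (J.cut c i).supp ⊆ W.un c p.P := H.ok.cut_sub (H.pok.nb i i.2)

theorem x0 (i : p.H) : (J.cut c i).x0 ∈ W.un c p.P := H.csub i ⟨(0, 0), rfl⟩

variable (d : ℤ)

set_option maxRecDepth 4000 in
theorem cok : (cu J c p θ Q).OK (H.ch.th d) where
  ok i t ht := H.ct i (H.ov t ht)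
  sub := H.csub
  rp a i w := by
    by_cases k : ∃ t ∈ Q, J.cc i w (θ t) ≠ 0
    · obtain ⟨t, h1, h2⟩ := k
      exact repC_tm (Mon62.hy_compact H.fam _) (by norm_num) (fun t ht => H.ct i (H.ov t ht))
        (H.ok.tc_in H.mem (H.ov t h1) h2).choose_spec ((H.ok.cc i w).comp H.sm).contDiffOn
    · exact ⟨0, contDiffOn_const, fun y => ((ev_tm _ _ y).trans (smul_eq_zero_of_left
        (by_contra fun k' => k ⟨_, y.ht, k'⟩) _)).symm⟩
  nat a b i w y y' u ζ ht _ e η v := by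
    have k : CR0 (J.B c) (J.G c (θ y.t)) (J.B c) (J.G c (θ y.t)) (W.un c p.P) (W.un c p.P) id
        (fun x b a => (J.B c).P b a x) (J.B c).l y.cfg y'.cfg u ζ := ⟨y.ad0 H.fam, ht ▸ y'.ad0 H.fam,
        fun x hx => y.off H.fam x fun k => hx (un_sub H.pok k),
        fun x hx => y'.off H.fam x fun k => hx (un_sub H.pok k), e⟩
    rw [ev_tm, ev_tm, ht]
    exact H.ok.tc_nat H.mem (H.ov _ y.ht) H.clo (unc_of H.pok.pc (H.pok.nb i i.2)) (H.csub i) w k η v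
  cpt _ i w y := (Hol14.cpt_tc (c := y.cfg) (B := J.B c) (F := (J.G c (θ y.t)).F) (k := J.cut c i)
    _).smul (J.cc i w (θ y.t))

/-- **the model** -/
abbrev Pb : Prob Wi := ((H.cok d).ext (H.ch.ok d)).prob

theorem ax : (H.Pb d).Ax fun _ => True := ((H.cok d).ax (H.ch.ok d)).ax

theorem lk : Lk J σ (fm J c p θ Q) p θ (H.ch.th d).e (H.ch.th d).τ where
  ok := H.ok
  mem := H.mem
  pc := H.pok.pc
  sub := H.pok.sub
  fam := H.fam
  B := rfl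
  G _ _ := rfl
  Om := rfl
  Om' := rfl
  ov := H.ov
  e t _ x z h1 h2 := by
    simp [PtX.add_D, PtX.sub_D, PtX.add_C, PtX.sub_C, nM, px, h1, h2]
  τ w t _ := ⟨-1, by norm_num, fun x => ⟨(neg_one_smul ℝ _).symm, (neg_one_smul ℝ _).symm,
    (neg_one_smul ℝ _).symm, neg_zero⟩⟩

variable {d} {q : Wi →₀ ℝ}

/-- the solutions of the model -/
theorem sol_iff {x : (H.Pb d).X} : (H.Pb d).Sol q x ↔ (H.ch.th d).In ⟨x.1, x.2.1⟩ ∧
    ((∀ z ∈ W.un c p.P', x.2.1.cfg.eD (J.G c (θ x.2.1.t)) (J.τ c q (θ x.2.1.t)) z = 0) ∧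
    (∀ z ∈ W.un c p.P, x.2.1.cfg.eC (J.B c) (J.G c (θ x.2.1.t)) (J.τ c q (θ x.2.1.t)) z = 0) ∧
    (∀ i, (J.τ c q (θ x.2.1.t)).S x.2.1.cfg i = 0) ∧ (r = 0 ∨ ‖x.2.1.z‖ = 1)) ∧
    ∀ i : p.H, (J.cut c i).Sol (J.B c) (J.G c (θ x.2.1.t)).F (J.σc c q (θ x.2.1.t) i) x.2.1.cfg
      (x.2.2 i) := by
  rw [(H.cok d).sol_iff (H.ch.ok d), H.ch.zr_iff d q, and_assoc]
  simp only [CTh.tot_ofT]
  rfl

end PM

/-- the point `(x, ψ)` represents the object `y` on the part -/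
structure Rp (y : J.Obc c) {o : Ref (fm J c p θ Q)} (x : Pnt o r)
    (ψ : ∀ i : p.H, HH o (J.cut c i)) : Prop where
  s : ∀ a ∈ p.V, y.s a = θ x.t a
  e : ∃ (u : (W.Z c).M → CL y.x.m.V o.m.V) (ζ : Circle),
    EqOn (J.B c) (J.G c y.s).F (W.un c p.P) y.x x.cfg u ζ ∧
    ∀ i : p.H, (J.cut c i).Eqv (J.cut c i) (J.B c) (J.B c) u (y.ψ i) (ψ i)

variable (σ p) in
/-- admissible objects -/
structure Ao (y : J.Obc c) : Prop where
  ov : J.Ov σ c y.s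
  adm : y.x.Adm (J.B c) (J.G c y.s)
  off : ∀ x ∉ W.un c p.P', y.x.Φ x = 0

theorem ao_of {q : Wi →₀ ℝ} {y : J.Obc c} (a : SolOn p σ q y) : Ao σ p y := ⟨a.ov, a.adm, a.off⟩

namespace PM
variable (H : PM J σ c p θ Q) [CompactSpace (W.Z c).M] {y : J.Obc c} (a : Ao σ p y)
  {o o' : Ref (fm J c p θ Q)} {x : Pnt o r} {x' : Pnt o' r} {ψ : ∀ i : p.H, HH o (J.cut c i)}
  {ψ' : ∀ i : p.H, HH o' (J.cut c i)} {q : Wi →₀ ℝ} {d : ℤ}
include H a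

theorem lg {t : T} (ht : t ∈ Q) (e : ∀ b ∈ p.V, y.s b = θ t b) :
    LG (J.B c) (J.G c y.s) (J.B c) (J.G c (θ t)) (W.un c p.P) id (fun x b a => (J.B c).P b a x)
      (J.B c).l := (H.pok.kt2 H.ok H.mem a.ov (H.ov t ht) e).toLG

theorem lg' {t : T} (ht : t ∈ Q) (e : ∀ b ∈ p.V, y.s b = θ t b) :
    LG (J.B c) (J.G c (θ t)) (J.B c) (J.G c y.s) (W.un c p.P) id (fun x b a => (J.B c).P b a x)
      (J.B c).l := (H.pok.kt2 H.ok H.mem (H.ov t ht) a.ov fun b hb => (e b hb).symm).toLG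

theorem adO {t : T} (ht : t ∈ Q) (e : ∀ b ∈ p.V, y.s b = θ t b) : AdO (fm J c p θ Q) t y.x :=
  ⟨ht, a.adm.ok, connOn_agr (H.pok.agr H.ok H.mem a.ov (H.ov t ht) e) (Pj41.IsConn.on a.adm.conn _),
    a.adm.sm, a.adm.pos, a.off⟩

theorem cr0 (e : ∀ b ∈ p.V, y.s b = θ x.t b) {u : (W.Z c).M → CL y.x.m.V o.m.V} {ζ : Circle}
    (k : EqOn (J.B c) (J.G c y.s).F (W.un c p.P) y.x x.cfg u ζ) :
    CR0 (J.B c) (J.G c y.s) (J.B c) (J.G c (θ x.t)) (W.un c p.P) (W.un c p.P) id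
      (fun x b a => (J.B c).P b a x) (J.B c).l y.x x.cfg u ζ :=
  ⟨ad0 a.adm, x.ad0 H.fam, fun z hz => a.off z fun k => hz (un_sub H.pok k),
    fun z hz => x.off H.fam z fun k => hz (un_sub H.pok k), k⟩

/-- **adapted representatives** -/
theorem exists_rp {t : T} (ht : t ∈ Q) (e : ∀ b ∈ p.V, y.s b = θ t b) :
    ∃ (A : y.x.m.Cn) (hA : y.x.m.IsConn (J.B c) (Λ.G J.m c 0) A)
      (x : Pnt (Rz.ref (fm J c p θ Q) ⟨⟨y.x.m, A⟩, a.adm.ok, hA⟩) r), x.t = t ∧ x.α = 0 ∧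
      x.φ = y.x.Φ ∧ x.z = y.x.z ∧ (∀ b, ∀ z ∈ W.un c p.P, x.cfg.W b z = y.x.W b z) ∧
      Rp y x fun i => y.ψ i := by
  obtain ⟨A, hA, x, h1, h2, h3, h4, h5⟩ := exists_ref H.fam (H.adO a ht e)
  refine ⟨A, hA, x, h1, h2, h3, h4, h5, h1 ▸ e, y.x.m.p, 1, ?_, fun i => eqv_refl a.adm.ok _⟩
  have k := ceq_refl (Λ.B_ok _ _) (H.ok.G_ok H.mem a.ov) (ad0 a.adm) H.clo.2
  exact ⟨k.m, fun z hz b => by simpa only [id, h5 _ z hz] using! k.W z hz b,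
    fun z hz => (show (0 : y.x.m.V) + x.φ z = _ by rw [h3, zero_add]; rfl).trans
      (k.Φ z hz), h4.trans k.z⟩

/-- two representatives are equivalent -/
theorem eqv_of (hr : r = 0 → p.P' = ∅) (e : Rp y x ψ) (e' : Rp y x' ψ') (ht : x'.t = x.t) :
    ∃ w ζ, (r = 0 → ζ = 1) ∧ x.Eq x' w ζ ∧
      ∀ i : p.H, (J.cut c i).Eqv (J.cut c i) (J.B c) (J.B c) w (ψ i) (ψ' i) := by
  obtain ⟨u, ζ, h1, h2⟩ := e.e
  obtain ⟨u', ζ', h3, h4⟩ := e'.e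
  have b := ad0 a.adm
  have g := H.lg a x.ht e.s
  have k := eqOn_trans (H.lg' a x.ht e.s) (H.lg a x'.ht e'.s) (x.ad0 H.fam) b (x'.ad0 H.fam)
    (eqOn_symm g b (x.ad0 H.fam) h1) h3
  obtain ⟨ξ, h5, h6⟩ := eqOn_one k fun k z _ => x.off H.fam z fun k' =>
    let ⟨_, h5, _⟩ := mem_un.1 k'; (hr k ▸ h5 : _ ∈ (∅ : Set _)).elim
  exact ⟨_, ξ, h5, h6, fun i => eqv_trans (φ := id) rfl (h3.m.J _ (H.x0 i)) o'.ok.Jsq
    (eqv_symm (ψ := id) (g.of_ceq b (x.ad0 H.fam) h1) (rel_refl g.hB (H.csub i)) rfl (h2 i)) (h4 i)⟩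

theorem same (e : Rp y x ψ) {π : Reg A} (hπ : π ∈ p.P) :
    SameT (J.G c y.s).F y.x (W.pc c π) (J.G c (θ x.t)).F x.cfg (W.pc c π) :=
  let ⟨_, _, k, _⟩ := e.e
  have f := H.pok.fr_eq H.ok H.mem a.ov (H.ov _ x.ht) e.s
  (H.lk 0).same ⟨ad0 a.adm, H.ok.memO H.mem a.ov⟩ f (ceq_on k fun z hz b => (f z hz b).1) hπ

theorem irr (hI : Job.In p y) (e : Rp y x ψ) : Irr x := fun z hz => by
  obtain ⟨π, h1, h2⟩ := mem_un.1 hz
  have hπ := H.pok.pc π h1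
  have k := H.same a e h1
  by_cases b : π ∈ p.P'
  · exact .inl (pc_cmp _ hπ (k.sp.1 (hI.sp π b)) z h2)
  have e1 : connectedComponent z = W.pc c π :=
    ((Cyl58.isClopen_pc _ hπ).connectedComponent_subset h2).antisymm
      ((Cyl58.isConnected_pc _ hπ).subset_connectedComponent h2)
  refine .inr ⟨fun k' => ?_, fun k' => hI.ir π h1 b (.inl (k.lin.2 (lin_of_red (x.ad0 H.fam).conn
    (Cyl58.isClopen_pc _ hπ).2 (Cyl58.isConnected_pc _ hπ).2 (e1 ▸ k'))))⟩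
  obtain ⟨π', h3, h4⟩ := mem_un.1 k'
  exact disjoint_left.1 (Cyl58.disjoint_pc _ hπ (H.pok.pc _ (H.pok.sub h3)) fun e => b (e ▸ h3)) h2 h4

theorem ix_eq (e : Rp y x ψ) : (Map77.n0 x : ℝ) =
    ix (J.B c) (J.G c y.s) (W.un c p.P) (W.un c p.P') y.x := by
  obtain ⟨u, ζ, k, -⟩ := e.e
  have g := H.pok.kt2 H.ok H.mem a.ov (H.ov _ x.ht) e.s
  have l := g.toLG.of_ceq (ad0 a.adm) (x.ad0 H.fam) k
  rw [n0_ix H.fam (W.Z c).dim]
  exact ix_lg g.toLG (H.pok.μ_eq H.ok H.mem a.ov (H.ov _ x.ht) e.s) H.fam.Om'.2 (un_sub H.pok)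
    fun z hz => l.kd hz

omit a in
/-- representatives of solutions are solutions -/
theorem sol {x : (H.Pb d).X} (s : SolOn p σ q y) (hI : Job.In p y) (e : Rp y x.2.1 x.2.2)
    (hd : dm n x.2.1 = d) : (H.Pb d).Sol q x := by
  have a := ao_of s
  obtain ⟨u, ζ, h1, h2⟩ := e.e
  have k := H.cr0 a e.s h1
  have g := H.lg a x.2.1.ht e.s
  have t := H.pok.t_rel H.ok H.mem a.ov (H.ov _ x.2.1.ht) e.s q
  have z : r = 0 ∨ ‖x.2.1.z‖ = 1 := s.adm.z.imp id fun z => (ceq_norm_z h1).trans z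
  refine H.sol_iff.2 ⟨⟨free H.fam (H.irr a hI e) (z.imp id fun k =>
      norm_ne_zero_iff.1 (k.trans_ne one_ne_zero)), hd, fun ⟨z, hz⟩ => ?_⟩,
    ⟨fun z hz => ?_, fun z hz => ?_, fun i => ?_, z⟩, fun i => ?_⟩
  · obtain ⟨π, h3, -⟩ := mem_un.1 hz
    exact ((H.same a e (H.pok.sub h3)).sp.1 (hI.sp π h3)).imp fun _ k => k.2
  · exact (t.eD g k (un_sub H.pok hz)).trans (by rw [s.D z hz, map_zero, ← csL_apply, map_zero])
  · exact (t.eC g k hz).trans (by rw [s.C z hz, map_zero])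
  · exact (t.S k i).trans (by rw [s.S, mul_zero])
  · exact (PcRel0.sol (H.pok.sc_rel H.ok H.mem a.ov (H.ov _ x.2.1.ht) e.s i.2 q) g (H.ct i a.ov)
      (H.ct i (H.ov _ x.2.1.ht)) (rel_refl g.hB (H.csub i)) k (h2 i)).2 (s.cut i i.2)

omit a in
/-- **density** -/
theorem onto {x : (H.Pb d).X} (hx : (H.Pb d).Sol q x) (hz : r = 0 → p.P' = ∅ ∧ n = 0)
    (hT : ∀ π ∈ p.P, J.RichT (θ x.2.1.t) π) (hS : J.RichS (θ x.2.1.t))
    (hC : ∀ i ∈ p.H, ∃ π ∈ p.P, J.nb i ⊆ M.sys.U π ∧ J.RichC (θ x.2.1.t) π i)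
    (hF : ∀ π ∈ p.P', ∃ z ∈ W.pc c π, x.2.1.cfg.Φ z ≠ 0)
    (hI : ∀ π ∈ p.P, π ∉ p.P' → ¬Lin (J.G c (θ x.2.1.t)).F x.2.1.cfg (W.pc c π) ∧
      ∃ z ∈ W.pc c π, x.2.1.cfg.m.Fg (J.G c (θ x.2.1.t)).F x.2.1.cfg.W z ≠ 0) :
    ∃ S, (H.Pb d).Onto q x S := by
  obtain ⟨h1, ⟨-, -, -, h2⟩, h3⟩ := H.sol_iff.1 hx
  have z : r = 0 ∨ x.2.1.z ≠ 0 := h2.imp id fun k => norm_ne_zero_iff.1 (k.trans_ne one_ne_zero)
  refine (H.cok d).onto (H.ch.ok d) hx (Lk.onto (H.ch.ok d) (H.lk d) trivial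
    (((Ext.sol_iff _ q x).1 hx).1) (z.imp hz id) hT hS hF hI
    (φ := fun z _ => ‖z‖ ^ 2 - 1) (fun y => ?_) (row_min z))
    (P := fun i w => J.cc i w (θ x.2.1.t) ≠ 0 ∧ J.co w (θ x.2.1.t) = 0 ∧
      (∀ i' : h, i' ≠ i → J.cc i' w (θ x.2.1.t) = 0) ∧ J.Nn w (θ x.2.1.t))
    (fun i w ⟨_, k1, k2, k3⟩ => ⟨?_, fun j hj => (ev_tm _ _ _).trans
      (smul_eq_zero_of_left (k2 _ (Subtype.coe_ne_coe.2 hj)) _)⟩) fun i N hN hA hT' => ?_
  · funext i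
    simp [PtX.add_R, PtX.sub_R, nM, px, Fam.eq0, eq0, Pnt.cfg]
  · obtain ⟨k4, k5, k6⟩ := τw_eq (c := c) k3 x.2.1.cfg
    rw [k1, zero_smul] at k4 k5 k6
    exact ⟨fun z _ => neg_eq_zero.2 (congrFun k4 z), fun z _ => neg_eq_zero.2 (congrFun k5 z),
      neg_eq_zero.2 k6, neg_zero⟩
  · obtain ⟨π, k1, k2, k3⟩ := hC i i.2
    refine (H.lk d).cut k1 subset_rfl (k2 ((H.ok.nb i).2.sub ⟨(0, 0), rfl⟩)) (H.ct i (H.ov _ x.2.1.ht))
      ?_ k3 (h3 i) hN (fun χ => by simpa only [evC, CTh.tot_ofT] using! hA χ)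
      fun w hw => (N.smul_mem_iff hw.1).1 (hT' w hw)
    by_cases b : π ∈ p.P'
    · obtain ⟨j, hj⟩ : ∃ j, x.2.1.z j ≠ 0 := by_contra fun k => z.resolve_left
        (fun k' => ((hz k').1.le b).elim) (by ext j; simpa using not_exists.1 k j)
      exact .inl ⟨hF π b, .z j, trivial, hj⟩
    · exact .inr (hI π k1 b)

omit a in
/-- **convergence of representatives** -/
theorem near (hr : r = 0 → p.P' = ∅) {α : Type} {l : Filter α} [l.NeBot] {y : α → J.Obc c}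
    {y₀ : J.Obc c} (hy : ∀ᶠ k in l, Ao σ p (y k)) (a : Ao σ p y₀) {x₀ : (H.Pb d).X}
    (h0 : (H.Pb d).In x₀) (e : Rp y₀ x₀.2.1 x₀.2.2) {t : α → T} (ht : Tendsto t l (𝓝 x₀.2.1.t))
    (hs : ∀ᶠ k in l, ∀ b ∈ p.V, (y k).s b = θ (t k) b) {u ζ}
    (h1 : ULim (W.Z c).I (J.B c) l (W.un c p.P) (fun i => J.fr c (y i).s) (fun i => (y i).x) y₀.x u ζ)
    (h2 : ∀ k ∈ p.H, CLim l y₀.x.m.J (fun i => u i (J.cut c k).x0) (fun i => (y i).ψ k) (y₀.ψ k)) :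
    RNear (fun (y : J.Obc c) (x : (H.Pb d).X) => Rp y x.2.1 x.2.2 ∧ dm n x.2.1 = d) l y x₀ := by
  obtain ⟨A, hA, x, e1, e2, e3, e4, e5, e6⟩ := H.exists_rp a x₀.2.1.ht e.s
  obtain ⟨w, ξ, k1, k2, k3⟩ := H.eqv_of a hr e e6 e1
  let x₁ : (H.Pb d).X := ⟨⟨⟨y₀.x.m, A⟩, a.adm.ok, hA⟩, x, fun i => y₀.ψ i⟩
  have k : (H.Pb d).eqv x₀ x₁ := ⟨e1, w, ξ, k1, k2, k3⟩
  have i1 := (H.ax d).in_eqv _ _ k h0
  have hq := ht.eventually (H.opn.mem_nhds x₀.2.1.ht)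
  have f : ∀ᶠ i in l, FrEq J c p (y i).s (θ (t i)) := (hy.and (hq.and hs)).mono fun i b =>
    H.pok.fr_eq H.ok H.mem b.1.ov (H.ov _ b.2.1) b.2.2
  obtain ⟨y', k4, k5⟩ := Kit16.near (k := 8) H.fam (by norm_num) rfl e2 (c := fun i => (y i).x) (t := t)
    (e := fun i => J.fr c (y i).s) (u := u) (ζ := ζ) e5 (e1 ▸ ht)
    ((hy.and (hq.and (hs.and f))).mono fun i b => ⟨H.adO b.1 b.2.1 b.2.2.1, fun z hz j =>
      (congrFun (congrFun ((W.L J.m c).F_e (Mark.mem_Ω _ (H.ok.memO H.mem b.1.ov))) j) z).symm.trans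
        (b.2.2.2 z hz j).1⟩) (by rw [e3, e4]; exact h1)
  choose χ k6 k7 using fun i : p.H => tendsto_Rh (Λ.B_ok _ _) a.adm.ok ((hy.and k5).mono fun j b =>
    ⟨b.1.adm.ok, me_of_meq b.2.2.m (H.x0 i)⟩) (h2 i i.2).choose_spec
  refine fun S hS => rNear_of (x₀ := x₁) (u := y) (rep := fun (y : J.Obc c) (x : (H.Pb d).X) =>
    Rp y x.2.1 x.2.2 ∧ dm n x.2.1 = d) (fun j => (y' j, fun i => χ i j))
    (k4.prodMk_nhds (tendsto_pi_nhds.2 k6)) ?_ S ((H.ax d).near_le i1 ((H.Pb d).eqv.symm k) hS)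
  filter_upwards [k5, hs, f, eventually_all.2 k7, (e1 ▸ ht).eventually (n0_ev H.fam (W.Z c).dim x)]
    with j b1 b2 b3 b4 b5
  exact ⟨⟨b1.1 ▸ b2, _, _, ceq_on b1.2 fun z hz i => (b3 z hz i).1.symm, b4⟩,
    (by rw [dm, dm, b5 _ b1.1] : dm n (y' j) = dm n x).trans i1.1.2.1⟩

end PM

end Crest.Agent.X212.Kit16
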