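import Crest.Agent.X212.Nd18.Fj
import Crest.Agent.X212.Pte3.Sol

/-!
# Row 212, FACT (helper16): density with one coefficient per piece
-/

set_option autoImplicit false
set_option linter.unusedSectionVars false
noncomputable section
open scoped Manifold ContDiff Topology InnerProductSpace
open MeasureTheory Set Function Filter

namespace Crest.Agent.X212.Kit16
open An M Nd18 Mod61 Nk89 Cht98 Rf65 Eqv71 Wrd81 Pte3 Hol14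
open An.Job (SolOn unc_of)

variable {Wi : Type} {X : Mf 4} {A κ lam : Type} [Fintype A] [Fintype κ] [Fintype lam]
  [DecidableEq lam] {M : Mark X A κ} {W : World M} {N : ML M lam} {Λ : Lns W N}
  {A' h : Type} [Fintype A'] [DecidableEq A'] [Fintype h] {r n : ℕ}
  {J : Job Wi Λ A' h r n} {c : M.Cl} {σ : Cel A'} {p : Prt A A' h} {π : Reg A}

variable (J) in
/-- all terms of the row of the cut `i` with the coefficient `d` -/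
def RichD (s : A' → ℝ) (π : Reg A) (i : h) (d : Co X.M (lam ⊕ lam) r) : Prop :=
  ∀ t : Tc X.M (lam ⊕ lam) r, XiX (M.sys.U π) d t.ξ → ∃ w, J.tc i w = t ∧ J.cc i w s ≠ 0 ∧
    J.co w s = 0 ∧ (∀ i', i' ≠ i → J.cc i' w s = 0) ∧ J.Nn w s

theorem richD_of {s : A' → ℝ} {i : h} (H : J.RichC s π i) {d : Co X.M (lam ⊕ lam) r}
    (hd : CoIn X.I (M.sys.U π) d) : RichD J s π i d := fun t ht => H t (by
  obtain ⟨_, _, _, _ | _ | _⟩ := t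
  exacts [ht, ht, ⟨ht.1 ▸ hd, ht.2⟩])

section lk
variable {T : Type} [NormedAddCommGroup T] [NormedSpace ℝ T] {m : ℕ}
  {𝔉 : Mod61.Fam (W.Z c).I (W.Z c).M (Option κ) (lam ⊕ lam) T} {s : T → A' → ℝ}
  {e : T → PtX (W.Z c).M (Option κ) (lam ⊕ lam) r n m}
  {τ : Wi → T → PtX (W.Z c).M (Option κ) (lam ⊕ lam) r n m} (L : Lk J σ 𝔉 p s e τ) {o : Ref 𝔉}
  {y : Pnt o r}
include L

/-- density in the row of a cut, for a coefficient with data anywhere -/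
theorem lk_cut (hπ : π ∈ p.P) {i : h} (hi : (J.ct i).x0 ∈ M.sys.U π)
    (hk : (J.cut c i).OK (J.B c) (J.G c (s y.t)).F) (hΦ : ∃ z ∈ W.pc c π, y.cfg.Φ z ≠ 0)
    {d : Co X.M (lam ⊕ lam) r} (d0 : y.cfg.co (𝔉.G y.t).F ((J.tp c).co d) ≠ 0) {P : Wi → Prop}
    (hR : ∀ t : Tc X.M (lam ⊕ lam) r, XiX (M.sys.U π) d t.ξ → ∃ w, J.tc i w = t ∧ P w)
    {q : Wi →₀ ℝ} {ψ : (J.cut c i).H (J.B c) y.cfg.m}
    (hψ : (J.cut c i).Sol (J.B c) (J.G c (s y.t)).F (J.σc c q (s y.t) i) y.cfg ψ)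
    {N : Submodule ℝ ((J.cut c i).H (J.B c) y.cfg.m)}
    (hN : IsClosed (N : Set ((J.cut c i).H (J.B c) y.cfg.m)))
    (hA : ∀ χ, ((J.cut c i).T (J.B c) (J.G c (s y.t)).F y.cfg.m y.cfg.W -
      J.σc c q (s y.t) i y.cfg) χ ∈ N)
    (hT : ∀ w, P w → y.cfg.tc (J.B c) (J.G c (s y.t)).F (J.cut c i) ((J.tp c).tc (J.tc i w)) ψ ∈ N)
    (χ : (J.cut c i).H (J.B c) y.cfg.m) : χ ∈ N := by
  have a := L.pcs y hπ
  have b := L.inv y hπ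
  rw [L.G _ y.ht] at d0 a
  rw [L.B] at a b
  have hx : (J.cut c i).x0 ∈ W.φ c '' M.sys.U π ∩ W.pc c π := ⟨⟨_, hi, rfl⟩, .inl ⟨_, hi, rfl⟩⟩
  refine den_tc a.hB a.ok hk (cn0_of a.conn) (On.sum _ fun _ _ => (on_tc a.hB a.ok hk _).smul _)
    (norm_ne_zero_iff.1 (hψ.1.trans_ne one_ne_zero)) hψ.2
    (P := fun ξ' => ∃ ξ, XiX (M.sys.U π) d ξ ∧
      y.cfg.xi (J.G c (s y.t)).F ((J.tp c).xi ξ) = y.cfg.xi (J.G c (s y.t)).F ξ')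
    ⟨.one, trivial, rfl⟩ (Hol14.spn_irr a hx (pc_cmp _ (L.pc π hπ) hΦ) d0 (fun u v h1 h2 => ?_)
      fun s u v h1 h2 h3 => ⟨.qj d _ _ _ [], ⟨rfl, b.s _ h1, b.toIn.sw h2, b.toIn.sw h3,
        llIn_nil⟩, ?_⟩) hN hA (fun u v ξ' ⟨ξ, h1, h2⟩ => ?_) χ
  · have k : AwIn (W.Z c).I (W.φ c '' M.sys.U π) ⟨.q u v, []⟩ := ⟨⟨h1, h2⟩, llIn_nil⟩
    exact ⟨.aw _, b.toIn.aw k, by rw [Tp.xi, b.aw' k]⟩
  · rw [Tp.xi, b.sw' h2, b.sw' h3, b.ts _ h1]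
    simp only [Cfg.xi, List.map_nil, wd, List.foldr_nil, Cfg.qj, a.ok.jl]
  · obtain ⟨w, h3, h4⟩ := hR ⟨u, v, 1, ξ⟩ h1
    have := hT w h4
    rw [h3] at this
    simpa only [Cfg.tc, Tp.tc, h2] using this

end lk

variable {U : Type} [Fintype U] {δ : ℝ} {b : Bp J c} {E : EC b p U δ}
  {Adm : (Wi →₀ ℝ) → Prop} {q : Wi →₀ ℝ} (H : CS σ E) {y : J.Obc c} {x : Pnt E.o r} {ψ : E.K}
  {K : Pnt E.o r → Prop} {d : ℤ} (g : (H.th K d).OK Adm) (S : SolOn p σ q y) (f : Fre p y)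
  (R : E.RepC y x ψ) (k : K x) (hb : b.s = y.s) (hI : Job.In p y)
include S f R k hb hI

omit f k hb in
include H in
theorem typ : (∀ π ∈ p.P', ∃ z ∈ W.pc c π, x.cfg.Φ z ≠ 0) ∧ ∀ π ∈ p.P, π ∉ p.P' →
    ¬Lin (J.G c (b.θ p U x.t)).F x.cfg (W.pc c π) ∧
      ∃ z ∈ W.pc c π, x.cfg.m.Fg (J.G c (b.θ p U x.t)).F x.cfg.W z ≠ 0 := by
  obtain ⟨u, ζ, e, -⟩ := R.e
  have s := fun π hπ => H.same (π := π) S R.s e hπ
  refine ⟨fun π hπ => (s π (H.pok.sub hπ)).sp.1 (hI.sp π hπ), fun π h2 h4 => ?_⟩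
  have := not_or.1 (hI.ir π h2 h4)
  rw [(s π h2).lin, (s π h2).flat] at this
  exact ⟨this.1, by_contra fun k => this.2 fun z hz => by_contra fun k' => k ⟨z, hz, k'⟩⟩

set_option maxHeartbeats 1000000 in
/-- density in the rows of the cuts -/
theorem onto_C (hn : ∀ i, IsPreconnected (J.nb i)) (h1 : ∃ S, g.Q.Onto q ⟨(), x⟩ S)
    (hF : ∀ π ∈ p.P', ∀ i ∈ p.H, J.nb i ⊆ M.sys.U π →
      ∃ d, x.cfg.co (J.G c y.s).F ((J.tp c).co d) ≠ 0 ∧ RichD J y.s π i d)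
    (hA : ∀ π ∈ p.P, π ∉ p.P' → ∀ i ∈ p.H, J.nb i ⊆ M.sys.U π → J.RichC y.s π i) :
    ∃ S, (H.pb g).Onto q ⟨(), x, ψ⟩ S := by
  obtain ⟨u, ζ, e, e'⟩ := R.e
  have t : b.θ p U x.t = y.s := (θ_self (hb ▸ R.s)).trans hb
  obtain ⟨sp, ir⟩ := typ H S R hI
  rw [← t] at hF hA
  refine (H.cu_ok K d).onto g (x := ⟨(), x, ψ⟩) (H.sol g S f R k) h1
    (P := fun i w => J.cc i w (b.θ p U x.t) ≠ 0 ∧ J.co w (b.θ p U x.t) = 0 ∧
      (∀ i', i' ≠ i.1 → J.cc i' w (b.θ p U x.t) = 0) ∧ J.Nn w (b.θ p U x.t))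
    (fun i w a => ⟨?_, fun j hj => ?_⟩) fun i N hN hB hT => ?_
  · obtain ⟨h2, h3, h4⟩ := τw_eq (c := c) a.2.2.2 x.cfg
    rw [a.2.1, zero_smul] at h2 h3 h4
    exact ⟨fun z _ => neg_eq_zero.2 (congrFun h2 z), fun z _ => neg_eq_zero.2 (congrFun h3 z),
      neg_eq_zero.2 h4, neg_zero⟩
  · exact (congrArg (· • x.cfg.tc (J.B c) (J.G c (b.θ p U x.t)).F (J.cut c j)
      ((J.tp c).tc (J.tc j w))) (a.2.2.1 j fun e => hj (Subtype.ext e))).trans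
        (ContinuousLinearMap.ext fun v => zero_smul ℝ _)
  · have x0 : (J.ct i).x0 ∈ J.nb i := (H.ok.nb i).2.sub ⟨(0, 0), rfl⟩
    obtain ⟨π, h2, h3⟩ := CS.exists_pc H.pok (hn i) x0 (H.pok.nb i i.2)
    by_cases h4 : π ∈ p.P'
    · obtain ⟨d, d1, d2⟩ := hF π h4 i i.2 h3
      exact lk_cut H.Lk (y := x) h2 (h3 x0) (H.cut_ok H.hb x.ht i) (sp π h4) d1 d2
        (H.cut_sol S R.s e (e' i)) hN
        (fun χ => tot_cu (b := b) (U := U) (δ := δ) (q := q) (t := x.t) i ▸ hB χ)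
        fun w a => (N.smul_mem_iff a.1).1 (hT w a)
    · exact H.Lk.cut (y := x) h2 subset_rfl (h3 x0) (H.cut_ok H.hb x.ht i) (.inr (ir π h2 h4))
        (hA π h2 h4 i i.2 h3) (H.cut_sol S R.s e (e' i)) hN
        (fun χ => tot_cu (b := b) (U := U) (δ := δ) (q := q) (t := x.t) i ▸ hB χ)
        fun w a => (N.smul_mem_iff a.1).1 (hT w a)

/-- **density with one coefficient per piece** -/
theorem onto_G (ha : Adm q) (hn : ∀ i, IsPreconnected (J.nb i))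
    (hF : ∀ π ∈ p.P', ∃ d, x.cfg.co (J.G c y.s).F ((J.tp c).co d) ≠ 0 ∧
      RichP X.I (M.sys.U π) d (J.HasT y.s) ∧ ∀ i ∈ p.H, J.nb i ⊆ M.sys.U π → RichD J y.s π i d)
    (hA : ∀ π ∈ p.P, π ∉ p.P' → RichA X.I (M.sys.U π) (J.HasT y.s) ∧
      ∀ i ∈ p.H, J.nb i ⊆ M.sys.U π → J.RichC y.s π i)
    (hS : n = 0 ∨ (∃ j, x.z j ≠ 0 ∧ J.RichS y.s) ∨ ∃ g,
      x.cfg.sg (J.G c y.s).F ((J.tp c).sg g) ≠ 0 ∧ ∀ i w, J.HasT y.s (.cut i w g)) :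
    ∃ S, (H.pb g).Onto q ⟨(), x, ψ⟩ S := by
  refine onto_C H g S f R k hb hI hn ?_
    (fun π hπ i h1 h2 => (hF π hπ).imp fun _ a => ⟨a.1, a.2.2 i h1 h2⟩) fun π h1 h2 => (hA π h1 h2).2
  obtain ⟨u, ζ, e, -⟩ := R.e
  have t : b.θ p U x.t = y.s := (θ_self (hb ▸ R.s)).trans hb
  obtain ⟨sp, ir⟩ := typ H S R hI
  rw [← t] at hF hA hS
  exact g.onto ha ((g.sol_iff q ⟨(), x⟩).2 ⟨⟨H.free S R.s e f, k⟩, H.zr S R.s e⟩) fun N => H.Lk.top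
    (fun π hπ => ⟨sp π hπ, (hF π hπ).imp fun _ a => ⟨a.1, a.2.1⟩⟩)
    (fun π h1 h2 => ⟨(ir π h1 h2).1, (ir π h1 h2).2, (hA π h1 h2).1⟩) hS
    (φ := fun z _ => ‖z‖ ^ 2 - 1)
    (fun y => funext fun _ => show (0 : ℝ) - 0 + (‖y.z‖ ^ 2 - 1) = _ by simp)
    (row_min ((H.nz S R.s e).imp id fun k => norm_ne_zero_iff.1 (k.trans_ne one_ne_zero)))
    (g.hk.trans' (by norm_num)) (g.repF () q)

include H in
omit f k hI in
/-- a free piece has a density with non-zero value -/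
theorem exists_sg (hπ : π ∈ p.P) (hf : ¬Fk18.FixP y π) : ∃ g, SgIn X.I (M.sys.U π) g ∧
    x.cfg.sg (J.G c y.s).F ((J.tp c).sg g) ≠ 0 ∧
    x.cfg.co (J.G c y.s).F ((J.tp c).co (.s g [])) ≠ 0 := by
  obtain ⟨u, ζ, e, -⟩ := R.e
  have t : b.θ p U x.t = y.s := (θ_self (hb ▸ R.s)).trans hb
  have := H.Lk.exists_co (y := x) hπ fun k => hf ((H.same S R.s e hπ).fix.2 k)
  rw [← t]
  exact this

end Crest.Agent.X212.Kit16

namespace Crest.Agent.X212.Kit16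
open An M Nd18 Pte3 Fk18

variable {Wi : Type} {X : Mf 4} {A κ lam : Type} [Fintype A] [Fintype κ] [Fintype lam]
  [DecidableEq lam] {M : Mark X A κ} {W : World M} {N : ML M lam} {Λ : Lns W N}
  {A' h : Type} [Fintype A'] [DecidableEq A'] [Fintype h] {r n : ℕ}
  (J : Job Wi Λ A' h r n) (c : M.Cl) (a : A)

/-- **LEAF A-DNX** -/
theorem dnX : DnX J c a := by
  intro hJ _ σ p δ Adm q y _ hp hR ha S hI ⟨π', h1, h2⟩ b E H x ψ _ hb R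
  obtain ⟨g, g1, g2, g3⟩ := exists_sg H.toCS S.toSolOn R hb h1 h2
  have k := hR y.s S.cell S.ov.2
  exact onto_G H.toCS H.g S.toSolOn S.fre R trivial hb hI ha hJ.nb
    (fun π hπ => have a := (k π (hp ▸ hπ)).2.2 π' h1
      ⟨_, g3, a.p g g1, fun i _ hi => a.cut g g1 i hi⟩)
    (fun π h3 h4 => (h4 (hp ▸ h3)).elim) (.inr (.inr ⟨g, g2, ((k π' h1).2.2 π' h1).row g g1⟩))

end Crest.Agent.X212.Kit16
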