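import Crest.Agent.X212.Kit16.Ch

/-!
# Row 212, KIT (helper16): the models of the cells, definitions and solutions
-/

set_option autoImplicit false
set_option linter.unusedSectionVars false
noncomputable section
open scoped Manifold ContDiff Topology InnerProductSpace
open MeasureTheory Set Function Filter Module

namespace Crest.Agent.X212.Kit16
open An An.Job M Prm93 Eqv71 Sob92 Mod61 Nd18 Wrd81 Cnt93

theorem ax_mono {W : Type} {Q : Prob W} (h : Q.Ax fun _ => True) (Adm : (W →₀ ℝ) → Prop) :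
    Q.Ax Adm := { h with slc := fun q x _ => h.slc q x trivial }

section cell
variable {A' : Type} [Fintype A'] [DecidableEq A'] {σ : Cel A'} {a : A'} {s : A' → ℝ}

/-- the free coordinates -/
abbrev TT (σ : Cel A') : Type := {a // σ a = none} → ℝ

/-- the point of the span of the cell -/
def xt (σ : Cel A') (t : TT σ) (a : A') : ℝ := if k : σ a = none then t ⟨a, k⟩ else (σ a).elim 0 b01

/-- the free coordinates of a point -/
def rs (σ : Cel A') (s : A' → ℝ) : TT σ := fun a => s a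

variable {t : TT σ}

theorem xt_none (k : σ a = none) : xt σ t a = t ⟨a, k⟩ := dif_pos k

theorem xt_sp (t : TT σ) : xt σ t ∈ sp σ := fun a b k => by simp [xt, k]

theorem xt_inj : Injective (xt σ) :=
  LeftInverse.injective (g := rs σ) fun _ => funext fun a => xt_none a.2

theorem sp_ext {s' : A' → ℝ} (h : s ∈ sp σ) (h' : s' ∈ sp σ) (e : ∀ a, σ a = none → s a = s' a) :
    s = s' := funext fun a => by
  rcases k : σ a with _ | b
  exacts [e a k, (h a b k).trans (h' a b k).symm]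

theorem xt_rs (h : s ∈ sp σ) : xt σ (rs σ s) = s := sp_ext (xt_sp _) h fun _ k => xt_none k

@[fun_prop] theorem sm_xt : ContDiff ℝ ∞ (xt σ) := contDiff_pi.2 fun a => by
  by_cases k : σ a = none
  · simp only [xt_none k]; fun_prop
  · simp only [xt, dif_neg k]; fun_prop

@[fun_prop] theorem sm_rs : ContDiff ℝ ∞ (rs σ) := contDiff_pi.2 fun a => by
  simp only [rs]; fun_prop

theorem rank_TT : finrank ℝ (TT σ) = dim σ := by simp [dim, Fintype.card_subtype]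

theorem dim_fc {b : A' × Bool} (k : σ b.1 = none) : dim (Job.fc σ b) + 1 = dim σ := by
  rw [dim, dim, ← Finset.card_erase_add_one (a := b.1) (s := {a | σ a = none}) (by simpa using k)]
  congr 2
  ext a
  by_cases e : a = b.1 <;> simp [Job.fc, e]

theorem sp_fc {b : A' × Bool} (k : σ b.1 = none) : s ∈ sp (Job.fc σ b) ↔ s ∈ sp σ ∧ s b.1 = b01 b.2 :=
  ⟨fun h => ⟨fun a b' e => h a b' (by rwa [Job.fc, update_of_ne fun e' => by simp [e', k] at e]),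
    h _ _ (update_self ..)⟩, fun h a b' e => by
    by_cases e' : a = b.1
    · rw [e', Job.fc, update_self] at e
      rw [e', ← Option.some.inj e, h.2]
    · exact h.1 a b' (by rwa [Job.fc, update_of_ne e'] at e)⟩

end cell

variable {Wi : Type} {X : Mf 4} {A κ lam : Type} [Fintype A] [Fintype κ] [Fintype lam]
  [DecidableEq lam] {M : Mark X A κ} {W : World M} {N : ML M lam} {Λ : Lns W N}
  {A' h : Type} [Fintype A'] [DecidableEq A'] [Fintype h] {r n : ℕ}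
  {J : Job Wi Λ A' h r n} {σ : Cel A'} {s : A' → ℝ} {q : Wi →₀ ℝ}

instance cpt0 : CompactSpace (W.Z M.c0).M := Cyl58.caps_compact _ fun _ k => k.elim

theorem pc0 : W.pc M.c0 (top A) = univ := eq_univ_of_forall fun z => by
  obtain ⟨π, h1, h2⟩ := Cyl58.exists_pc W.toCaps z
  obtain rfl : π = top A := funext fun a => by_contra fun k => h1.bd_subset k
  exact h2

theorem un0 : W.un M.c0 {top A} = univ := (un_one _ _ _).trans pc0

variable (J) in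
/-- the domain of the free coordinates -/
def Qs (σ : Cel A') : Set (TT σ) := {t | ∀ a, (J.hd a).isSome → xt σ t a < 1}

/-- everything -/
abbrev p0 (A h : Type) (σ : Cel A') : Prt A A' h := ⟨{top A}, {top A}, {a | σ a = none}, univ⟩

variable (J) in
/-- the topological part of the index -/
def tp0 (s : A' → ℝ) : ℝ := ∫ z, (Num57.lad (J.B M.c0) (J.G M.c0 s) z / 2 -
  Num57.sgd (J.G M.c0 s).F (J.B M.c0).o z / 2 - 3 * (Num57.eud (J.G M.c0 s).F (J.B M.c0).o z +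
    Num57.sgd (J.G M.c0 s).F (J.B M.c0).o z) / 2) ∂(J.G M.c0 s).F.μ

section
variable (hJ : J.OK) (hσ : σ ∈ J.𝒦)
include hJ hσ

theorem ov_iff : J.Ov σ M.c0 s ↔ s ∈ sp σ ∧ ∀ a, (J.hd a).isSome → s a < 1 := by
  refine ⟨fun k => ⟨k.1.1, fun a ha => (k.1.2 a ha).lt_of_ne fun e => ?_⟩, fun k =>
    have d : s ∈ J.dom σ := ⟨k.1, fun a ha => (k.2 a ha).le⟩
    ⟨d, eq_empty_of_forall_notMem fun x hx => ?_⟩⟩
  · obtain ⟨x, hx⟩ := Option.isSome_iff_exists.1 ha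
    obtain ⟨s₀, h1, h2⟩ := hJ.lin
    exact k.2.le ((h2 a x hx s (h1.le.trans e.ge)).1.trans e)
  · obtain ⟨a, h1, h2⟩ := hJ.inf σ hσ s d x hx
    exact (k.2 a (by simp [h1])).ne h2

theorem zero_Qs : 0 ∈ Qs J σ := fun a ha => by
  rcases k : σ a with _ | _ | _
  · simp [xt_none k]
  · simp [xt_sp _ a _ k, b01]
  · simp [hJ.soft σ hσ a k] at ha

theorem pm : PM J σ M.c0 (p0 A h σ) (xt σ) (Qs J σ) where
  ok := hJ
  mem := hσ
  pok := ⟨fun _ k => k ▸ M.sys.piece_top, subset_rfl, fun _ k => ⟨k, fun _ _ => id⟩,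
    fun _ _ => by simp, fun s s' a b e => by
      obtain rfl := sp_ext a.1.1 b.1.1 e
      exact ⟨rfl, fun _ _ _ _ => ⟨rfl, rfl⟩, fun _ => .inl rfl, fun _ _ _ => .inl rfl⟩⟩
  pin _ k := k.elim
  opn := by
    simp only [Qs, setOf_forall]
    exact isOpen_iInter_of_finite fun a => isOpen_iInter_of_finite fun _ =>
      isOpen_lt ((continuous_apply a).comp sm_xt.continuous) continuous_const
  sm := sm_xt
  ov t ht := (ov_iff hJ hσ).2 ⟨xt_sp t, ht⟩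

theorem rs_mem (k : J.Ov σ M.c0 s) : rs σ s ∈ Qs J σ := fun a ha => by
  rw [xt_rs k.1.1]; exact ((ov_iff hJ hσ).1 k).2 a ha

theorem ix0 (k : J.Ov σ M.c0 s) {x : Cfg _ _ _ r} (a : Ad0 x (J.B M.c0) (J.G M.c0 s)) :
    Integrable (x.m.kd (J.B M.c0) (J.G M.c0 s).F x.W) (J.G M.c0 s).F.μ ∧
    ix (J.B M.c0) (J.G M.c0 s) univ univ x = 6 * x.kap (J.B M.c0) (J.G M.c0 s) + tp0 J s := by
  have b := Λ.B_ok J.m M.c0
  have g := hJ.G_ok hσ k
  have o := Num57.OK.of_base (W.Z M.c0).dim b g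
  have i1 := Num57.int_sm (F := (J.G M.c0 s).F) (Idg99.sm_kd b g a.ok a.conn (W.Z M.c0).dim)
  have i2 := Num57.int_sm (F := (J.G M.c0 s).F) (Idg99.sm_lad b g (W.Z M.c0).dim)
  have i3 := Num57.int_sm (F := (J.G M.c0 s).F) (Idg99.sm_sgd o)
  have i4 := Num57.int_sm (F := (J.G M.c0 s).F) (Idg99.sm_eud o)
  have i5 := ((i4.add i3).const_mul 3).div_const 2
  refine ⟨i1, ?_⟩
  rw [ix, tp0, Measure.restrict_univ, ← Num57.eud99, ← Num57.sgd99, ← Num57.lad99 b g, Cfg.kap, Md.kap,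
    ← integral_const_mul]
  exact (integral_add ((i1.const_mul 8).sub i5) (((i2.div_const 2).sub (i1.const_mul 2)).sub
    (i3.div_const 2))).symm.trans ((integral_congr_ae (.of_forall fun z => by
      simp only [Pi.add_apply, Pi.sub_apply]; ring)).trans
    (integral_add (i1.const_mul 6) (((i2.div_const 2).sub (i3.div_const 2)).sub i5)))

theorem solOn {y : J.Obc M.c0} (k : Sol σ q y) (t : top0 y) :
    SolOn (p0 A h σ) σ q y ∧ Job.In (p0 A h σ) y :=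
  ⟨⟨k.cell, k.inf, k.sol.toAdm, fun z hx => (hx (un0.ge (mem_univ z))).elim, fun x _ => k.sol.D x,
    fun x _ => k.sol.C x, k.sol.S, fun i _ => k.cut i (by rw [k.H_eq t.1]; simp [unc, Sys.cores, Mark.c0]),
    fun _ _ ha => ha.2.2.2.elim, fun _ ha => ha.1.elim, k.int.integrableOn⟩,
    fun _ e => let ⟨x, hx⟩ := t.2; ⟨x, by rw [e, pc0]; trivial, hx⟩, fun _ a b => (b a).elim⟩

end

variable (hJ : J.OK) (n₀ : ℤ) (τ τ' : J.𝒦)

/-- the model of a cell -/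
def QQ : Prob Wi := (pm hJ τ.2).Pb (n₀ + dim τ.1 + 2 * Fintype.card h)

/-- the configuration with given coordinates -/
@[reducible] def cfS (a : Rz (J.B M.c0) (Λ.G J.m M.c0 0)) (α : (W.Z M.c0).M → Fm (Option κ) a.1.1.A)
    (φ : (W.Z M.c0).M → a.1.1.V) (z : EuclideanSpace ℂ (Fin r)) (s : A' → ℝ) :
    Cfg (W.Z M.c0).M (Option κ) (lam ⊕ lam) r :=
  ⟨a.1.1, (a.ref (fm J M.c0 (p0 A h fun _ => none) id univ)).W s α, 0 + φ, z⟩

/-- the object with given coordinates -/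
@[reducible] def obS (a : Rz (J.B M.c0) (Λ.G J.m M.c0 0)) (α : (W.Z M.c0).M → Fm (Option κ) a.1.1.A)
    (φ : (W.Z M.c0).M → a.1.1.V) (z : EuclideanSpace ℂ (Fin r))
    (ψ : ∀ i : (univ : Set h), (J.cut M.c0 i).H (J.B M.c0) a.1.1) (s : A' → ℝ) : J.Obc M.c0 :=
  ⟨s, cfS a α φ z s, univ, fun i => ψ ⟨i, trivial⟩, fun _ _ => ⟨⟨0, 0, 0, 0, 0⟩, 0, 0, 0⟩, 1, 0, 0, 0⟩

variable {hJ n₀ τ τ'}

/-- the object of a point -/
@[reducible] def ob (x : (QQ hJ n₀ τ).X) : J.Obc M.c0 :=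
  obS x.1 x.2.1.α x.2.1.φ x.2.1.z x.2.2 (xt τ.1 x.2.1.t)

theorem ob_x (x : (QQ hJ n₀ τ).X) : (ob x).x = x.2.1.cfg := rfl

theorem ov_ob (x : (QQ hJ n₀ τ).X) : J.Ov τ.1 M.c0 (ob x).s := (pm hJ τ.2).ov _ x.2.1.ht

theorem ad_ob (x : (QQ hJ n₀ τ).X) : Ad0 (ob x).x (J.B M.c0) (J.G M.c0 (ob x).s) :=
  x.2.1.ad0 (pm hJ τ.2).fam

theorem ok_ob (x : (QQ hJ n₀ τ).X) : (ob x).Ok := ⟨ad_ob x, hJ.memO τ.2 (ov_ob x)⟩

theorem iso_iff {y : J.Obc M.c0} (hy : y.s ∈ sp τ.1) {x : (QQ hJ n₀ τ).X} :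
    Iso y (ob x) ↔ Rp y x.2.1 x.2.2 :=
  ⟨fun ⟨e, u, ζ, h1, h2⟩ => ⟨fun a _ => congrFun e a, u, ζ, by rw [un0]; exact h1,
      fun i => h2 ⟨i, by simp [unc, Sys.cores, Mark.c0]⟩⟩,
    fun ⟨e, u, ζ, h1, h2⟩ => ⟨sp_ext hy (xt_sp _) e, u, ζ, by rw [un0] at h1; exact h1,
      fun i => h2 ⟨i, trivial⟩⟩⟩

theorem rp_ob (x : (QQ hJ n₀ τ).X) : Rp (ob x) x.2.1 x.2.2 := (iso_iff (xt_sp _)).1 (ok_ob x).refl

theorem eqv_iff (hr : r ≠ 0) {x x' : (QQ hJ n₀ τ).X} :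
    (QQ hJ n₀ τ).eqv x x' ↔ Iso (ob x) (ob x') := by
  rw [iso_iff (xt_sp _)]
  exact ⟨fun ⟨e, u, ζ, _, h1, h2⟩ => ⟨fun a _ => by rw [e], u, ζ, h1, h2⟩, fun ⟨e, u, ζ, h1, h2⟩ =>
    ⟨xt_inj (sp_ext (xt_sp _) (xt_sp _) e).symm, u, ζ, fun k => (hr k).elim, h1, h2⟩⟩

variable (hr : r ≠ 0) (hI : ∀ s, J.Ov τ.1 M.c0 s →
  6 * J.k + tp0 J s + 2 * r - 2 * n - 2 - 2 * Fintype.card h = n₀)
include hr hI

theorem dm_iff (x : (QQ hJ n₀ τ).X) : dm n x.2.1 = n₀ + dim τ.1 + 2 * Fintype.card h ↔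
    (ob x).x.kap (J.B M.c0) (J.G M.c0 (ob x).s) = J.k := by
  have k := n0_ix (pm hJ τ.2).fam (W.Z M.c0).dim x.2.1
  have k1 := (ix0 hJ τ.2 (ov_ob x) (ad_ob x)).2
  have k2 := hI _ (ov_ob x)
  change _ = ix _ _ (W.un M.c0 {top A}) (W.un M.c0 {top A}) _ at k
  rw [un0] at k
  have k3 : ((min r 1 : ℕ) : ℤ) = 1 := by rw [min_eq_right (Nat.one_le_iff_ne_zero.2 hr), Nat.cast_one]
  rw [dm, rank_TT, k3, ← Int.cast_inj (α := ℝ)]
  push_cast
  rw [k.trans k1]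
  exact ⟨fun e => by linarith, fun e => by linarith⟩

/-- solutions of the model are solutions -/
theorem sol_ob {x : (QQ hJ n₀ τ).X} (k : (QQ hJ n₀ τ).Sol q x) (hs : (ob x).s ∈ cl σ) :
    Sol σ q (ob x) ∧ top0 (ob x) := by
  obtain ⟨⟨-, h1, h2⟩, ⟨h3, h4, h5, h6⟩, h7⟩ := (pm hJ τ.2).sol_iff.1 k
  have a := ad_ob x
  have u : ∀ z, z ∈ W.un M.c0 {top A} := fun z => un0.ge (mem_univ z)
  have e : J.unc M.c0 = univ := by simp [unc, Sys.cores, Mark.c0]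
  refine ⟨⟨hs, (ov_ob x).2, ⟨⟨a.ok, a.conn, a.sm, a.pos, h6⟩, fun z => h3 z (u z), fun z => h4 z (u z),
    h5⟩, e.ge, fun i _ => h7 ⟨i, trivial⟩, by simp, fun _ _ ha => ha.2.2.2.elim, fun _ ha => ha.1.elim,
    fun _ ha => ha.1.elim, (ix0 hJ τ.2 (ov_ob x) a).1, ?_⟩, rfl, h2 ?_⟩
  · rw [(dm_iff hr hI x).1 h1]
    simp
  · exact (Cyl58.isConnected_pc _ M.sys.piece_top).1.mono (un_one _ _ _).ge

/-- representatives of solutions are solutions of the model -/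
theorem sol_of {y : J.Obc M.c0} (k : Sol τ.1 q y) (t : top0 y) {x : (QQ hJ n₀ τ).X}
    (e : Iso y (ob x)) : (QQ hJ n₀ τ).Sol q x := by
  obtain ⟨h1, h2⟩ := solOn hJ τ.2 k t
  have e' := (iso_iff k.cell.1).1 e
  refine (pm hJ τ.2).sol h1 h2 e' ((dm_iff hr hI x).2 ?_)
  have k1 := (pm hJ τ.2).ix_eq (ao_of h1) e'
  have k2 := n0_ix (pm hJ τ.2).fam (W.Z M.c0).dim x.2.1
  have k3 := (ix0 hJ τ.2 (ov_ob x) (ad_ob x)).2
  have k4 := (ix0 hJ τ.2 h1.ov (ad0 h1.adm)).2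
  have k5 : y.x.kap (J.B M.c0) (J.G M.c0 y.s) = J.k := by
    simpa [t.1, show cylW M.c0 = ∅ from eq_empty_of_forall_notMem fun _ k => k.1] using k.lev
  change _ = ix _ _ (W.un M.c0 {top A}) (W.un M.c0 {top A}) _ at k1 k2
  rw [un0] at k1 k2
  have k6 := k4.symm.trans (k1.symm.trans (k2.trans k3))
  rw [k5, show tp0 J y.s = tp0 J (ob x).s from congrArg _ e.1] at k6
  linarith

end Crest.Agent.X212.Kit16
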