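import Crest.Agent.X212.Kit16.Md0

/-!
# Row 212, KIT (helper16): change of cell
-/

set_option autoImplicit false
set_option linter.unusedSectionVars false
noncomputable section
open scoped Manifold ContDiff Topology InnerProductSpace
open MeasureTheory Set Function Filter Module

namespace Crest.Agent.X212.Kit16
open An An.Job M Prm93 Eqv71 Sob92 Mod61 Nd18 Wrd81 Cnt93

theorem trv_of {W : Type} {Q Q' : Prob W} {Adm : (W →₀ ℝ) → Prop} (h : Q.Ax Adm) (h' : Q'.Ax Adm)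
    (x : Q.X) (x' : Q'.X) {q : W →₀ ℝ} {t : ∀ o, Q'.C o → ℝ} (ρ : Q'.E x'.1 →L[ℝ] Q.E x.1)
    (hρ : Injective ρ) {j : Q.C x.1 → Q'.C x'.1} (hj : ContDiff ℝ ∞ j)
    (e : j (Q.pt x.2) = Q'.pt x'.2) (hx : ∀ y : Q.S x.1, Q.pt y ∈ Q.U x.1)
    (hm : MapsTo j (Q.U x.1) (Q'.U x'.1)) (hd : Q.U x.1 ⊆ closure (range fun y : Q.S x.1 => Q.pt y))
    (he : ∀ y : Q.S x.1, Q.F x.1 q (Q.pt y) = ρ (Q'.F x'.1 q (j (Q.pt y)))) (L : Q'.C x'.1 →L[ℝ] ℝ)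
    {c : ℝ} (ht : ∀ v, t x'.1 v = c + L v) (hc : ∀ v w, L (j v) = L (j w)) (h0 : ∃ v, L v ≠ 0)
    (hs : Q.Reg q x) : Trv Q' t q x' := by
  have k := (L.hasFDerivAt (x := j (Q.pt x.2))).const_add c
  have k1 : EqOn (Q.F x.1 q) (fun v => ρ (Q'.F x'.1 q (j v))) (Q.U x.1) :=
    Set.EqOn.of_subset_closure (s := range fun y : Q.S x.1 => Q.pt y) (forall_mem_range.2 he)
      (h.smF _ q).continuousOn (ρ.continuous.comp_continuousOn ((h'.smF _ q).continuousOn.comp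
        hj.continuous.continuousOn hm)) (forall_mem_range.2 hx) hd
  rw [Trv, ← e, funext ht, k.fderiv]
  exact surj_prod_of_sub ρ hρ (hj.differentiable (by simp) _).hasFDerivAt
    (h'.strictF q (hm (hx _))).differentiableAt
    (((h.isOpen _).eventually_mem (hx _)).mono k1) k (.of_forall fun v => congrArg _ (hc _ _))
    (fun k => h0.elim fun v hv => hv (by simp [k])) hs

section ext
variable {W h : Type} [Fintype h] {Q Q' : Prob W} (X : Ext Q h) (X' : Ext Q' h) {o : Q.O} {o' : Q'.O}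

theorem sm_ext {j : Q.C o → Q'.C o'} (hj : ContDiff ℝ ∞ j) (κ : (∀ i, X.K o i) →L[ℝ] ∀ i, X'.K o' i) :
    ContDiff ℝ ∞ fun v : X.prob.C o => ((j v.1, κ v.2) : X'.prob.C o') :=
  (hj.comp contDiff_fst).prodMk (κ.contDiff.comp contDiff_snd)

/-- forgetting the fields -/
def pF (o : Q.O) : X.prob.C o →L[ℝ] Q.C o := .fst ℝ _ _

theorem dense_ext (hd : Q.U o ⊆ closure (range fun y : Q.S o => Q.pt y)) :
    X.prob.U o ⊆ closure (range fun y : X.prob.S o => X.prob.pt y) := fun v hv =>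
  map_mem_closure (f := fun u => (u, v.2)) (by fun_prop) (hd hv.1) fun _ ⟨y, e⟩ => ⟨(y, v.2), e ▸ rfl⟩

end ext

section th
variable {E : Type} [NormedAddCommGroup E] [NormedSpace ℝ E] [FiniteDimensional ℝ E]
  [MeasurableSpace E] [BorelSpace E]
  {HM : Type} [TopologicalSpace HM] {I : ModelWithCorners ℝ E HM} [I.Boundaryless]
  {M : Type} [TopologicalSpace M] [ChartedSpace HM M] [IsManifold I ∞ M]
  [MeasurableSpace M] [T2Space M] [BorelSpace M] [SecondCountableTopology M]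
  {ι : Type} [Fintype ι] {lam : Type} [Fintype lam]
  {T : Type} [NormedAddCommGroup T] [NormedSpace ℝ T] [CompleteSpace T]
  {𝔉 : Fam I M ι lam T} {r n m : ℕ} {W hh : Type} [Fintype hh] {Ξ : CTh 𝔉 r W hh}
  {Θ : Th 𝔉 r n m W} {Adm : (W →₀ ℝ) → Prop} (H : Ξ.OK Θ) (h : Θ.OK Adm)

/-- the parameter -/
def pP (a : Θ.O) : h.Q.C a →L[ℝ] T :=
  (.snd ℝ _ _ ∘L .snd ℝ _ _ ∘L .snd ℝ _ _ : (Θ.ref a).C r Θ.k →L[ℝ] T)

theorem sm_th {T' : Type} [NormedAddCommGroup T'] [NormedSpace ℝ T'] [CompleteSpace T']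
    {𝔉' : Fam I M ι lam T'} {Θ' : Th 𝔉' r n m W} (h' : Θ'.OK Adm) (a : Θ.O) (a' : Θ'.O)
    (κ₁ : 𝔉.F0.H (Θ.k + 1) (Θ.ref a).P1 →L[ℝ] 𝔉'.F0.H (Θ'.k + 1) (Θ'.ref a').P1)
    (κ₂ : 𝔉.F0.H (Θ.k + 1) (Θ.ref a).Pp →L[ℝ] 𝔉'.F0.H (Θ'.k + 1) (Θ'.ref a').Pp) {f : T → T'}
    (hf : ContDiff ℝ ∞ f) : ContDiff ℝ ∞ fun v : h.Q.C a =>
      ((κ₁ v.1, κ₂ v.2.1, v.2.2.1, f v.2.2.2) : h'.Q.C a') :=
  show ContDiff ℝ ∞ fun v : (Θ.ref a).C r Θ.k =>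
    ((κ₁ v.1, κ₂ v.2.1, v.2.2.1, f v.2.2.2) : (Θ'.ref a').C r Θ'.k) by fun_prop

theorem dense_th (a : Θ.O) : h.Q.U a ⊆ closure (range fun y : h.Q.S a => h.Q.pt y) :=
  U_subset h.fam h.k3

theorem F_pt (a : Θ.O) (q : W →₀ ℝ) (y : (H.ext h).prob.S a) :
    (H.ext h).prob.F a q ((H.ext h).prob.pt y) = (Θ.F a q (y.1.pt Θ.k), fun i =>
      (evC (tpC 𝔉 r (Ξ.k i)) y.1 - evC (Ξ.tot q i) y.1) (y.2 i), fun i => ‖y.2 i‖ ^ 2 - 1) :=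
  ((H.ext h).F_eq a q _).trans (Prod.ext rfl (Prod.ext (funext fun i =>
    DFunLike.congr_fun (H.T_pt h q a i y.1) (y.2 i)) rfl))

end th

variable {Wi : Type} {X : Mf 4} {A κ lam : Type} [Fintype A] [Fintype κ] [Fintype lam]
  [DecidableEq lam] {M : Mark X A κ} {W : World M} {N : ML M lam} {Λ : Lns W N}
  {A' h : Type} [Fintype A'] [DecidableEq A'] [Fintype h] {r n : ℕ}
  {J : Job Wi Λ A' h r n} {σ : Cel A'} {s : A' → ℝ} {q : Wi →₀ ℝ}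
  (hJ : J.OK) {n₀ : ℤ} (τ τ' : J.𝒦)

scoped instance (priority := high) : Fintype (univ : Set h) := Fintype.ofFinite _

open Classical in
/-- change of cell -/
def tι (t : TT τ.1) : Qs J τ'.1 :=
  if k : rs τ'.1 (xt τ.1 t) ∈ Qs J τ'.1 then ⟨_, k⟩ else ⟨0, zero_Qs hJ τ'.2⟩

variable {hJ τ}

/-- change of cell -/
@[reducible] def inc (x : (QQ hJ n₀ τ).X) : (QQ hJ n₀ τ').X :=
  ⟨x.1, ⟨x.2.1.α, x.2.1.φ, x.2.1.z, tι hJ τ τ' x.2.1.t, x.2.1.hα, x.2.1.hφ, (tι hJ τ τ' _).2⟩, x.2.2⟩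

variable {τ'}

theorem rs_Qs {t : TT τ.1} (ht : t ∈ Qs J τ.1) (e : xt τ.1 t ∈ sp τ'.1) :
    rs τ'.1 (xt τ.1 t) ∈ Qs J τ'.1 := fun a ha => by rw [xt_rs e]; exact ht a ha

theorem tι_eq {t : TT τ.1} (ht : t ∈ Qs J τ.1) (e : xt τ.1 t ∈ sp τ'.1) :
    (tι hJ τ τ' t).1 = rs τ'.1 (xt τ.1 t) := by rw [tι, dif_pos (rs_Qs ht e)]

theorem ob_inc {x : (QQ hJ n₀ τ).X} (e : (ob x).s ∈ sp τ'.1) : ob (inc τ' x) = ob x :=
  congrArg (obS x.1 x.2.1.α x.2.1.φ x.2.1.z x.2.2)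
    ((congrArg (xt τ'.1) (tι_eq x.2.1.ht e)).trans (xt_rs e))

theorem inc_inc {x : (QQ hJ n₀ τ).X} (e : (ob x).s ∈ sp τ'.1) : inc τ (inc τ' x) = x := by
  have k : (inc τ (inc τ' x)).2.1.t = x.2.1.t := xt_inj (congrArg Obc.s
    ((ob_inc (τ' := τ) (x := inc τ' x) (ob_inc e ▸ xt_sp _)).trans (ob_inc e)))
  obtain ⟨a, ⟨α, φ, z, t, h1, h2, h3⟩, ψ⟩ := x
  exact congrArg (fun t : Qs J τ.1 => (⟨a, ⟨α, φ, z, t.1, h1, h2, t.2⟩, ψ⟩ : (QQ hJ n₀ τ).X))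
    (Subtype.ext k : _ = ⟨t, h3⟩)

variable (J) in
/-- the equation at the parameter `s` -/
def eqS (q : Wi →₀ ℝ) (s : A' → ℝ) : PtX (W.Z M.c0).M (Option κ) (lam ⊕ lam) r n (min r 1) :=
  eq0 (J.B M.c0) (J.G M.c0 s) r n _ + nM _ _ _ Unit r n _ () - px _ (J.τ M.c0 q s)

variable (τ') in
/-- change of cell on the Banach models -/
def jC (a : (QQ hJ n₀ τ).O) (v : (QQ hJ n₀ τ).C a) : (QQ hJ n₀ τ').C a :=
  ((v.1.1, v.1.2.1, v.1.2.2.1, rs τ'.1 (xt τ.1 v.1.2.2.2)), v.2)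

theorem sm_jC (a : (QQ hJ n₀ τ).O) : ContDiff ℝ ∞ (jC τ' a) :=
  sm_ext (((pm hJ τ.2).cok _).ext ((pm hJ τ.2).ch.ok _)) (((pm hJ τ'.2).cok _).ext ((pm hJ τ'.2).ch.ok _))
    (sm_th ((pm hJ τ.2).ch.ok _) ((pm hJ τ'.2).ch.ok _) a a (.id ℝ _) (.id ℝ _) (sm_rs.comp sm_xt))
    (.id ℝ _)

theorem F_jC (e : sp τ.1 ⊆ sp τ'.1) (a : (QQ hJ n₀ τ).O) (y : (QQ hJ n₀ τ).S a) :
    (QQ hJ n₀ τ).F a q ((QQ hJ n₀ τ).pt y) = (QQ hJ n₀ τ').F a q (jC τ' a ((QQ hJ n₀ τ).pt y)) := by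
  have H := pm hJ τ.2
  have H' := pm hJ τ'.2
  let d : ℤ := n₀ + dim τ.1 + 2 * Fintype.card h
  let d' : ℤ := n₀ + dim τ'.1 + 2 * Fintype.card h
  obtain ⟨y, ψ⟩ := y
  let y' : Pnt ((H'.ch.th d').ref a) r :=
    ⟨y.α, y.φ, y.z, rs τ'.1 (xt τ.1 y.t), y.hα, y.hφ, rs_Qs y.ht (e (xt_sp _))⟩
  have s1 := xt_rs (e (xt_sp y.t))
  refine (F_pt (H.cok d) (H.ch.ok d) a q (y, ψ)).trans (Eq.trans ?_
    (F_pt (H'.cok d') (H'.ch.ok d') a q (y', ψ)).symm)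
  refine Prod.ext ?_ (Prod.ext (funext fun i => ?_) rfl)
  · obtain ⟨k1, k2, k3, k4⟩ := ((H'.ch.ok d').repF a q).2 y'
    rw [CH.tot_eq] at k1 k2 k3 k4
    refine (((H.ch.ok d).repF a q).2 y).unique H.fam (by norm_num) ⟨k1.trans ?_, k2.trans ?_,
      k3.trans ?_, k4.trans ?_⟩ <;> rw [CH.tot_eq]
    exacts [congrArg (indicator _) (congrArg (β := _ → a.1.1.V)
        (fun s => (eqS J q s).D (cfS a y.α y.φ y.z s)) s1),
      congrArg (indicator _) (congrArg (β := _ → Fm _ a.1.1.A)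
        (fun s => (eqS J q s).C (cfS a y.α y.φ y.z s)) s1),
      congrArg (fun s => (eqS J q s).S (cfS a y.α y.φ y.z s)) s1,
      congrArg (fun s => (eqS J q s).R (cfS a y.α y.φ y.z s)) s1]
  · simp only [evC, CTh.tot_ofT]
    exact congrArg (fun s => ((J.cut M.c0 i).T (J.B M.c0) (J.G M.c0 s).F a.1.1 (cfS a y.α y.φ y.z s).W -
      J.σc M.c0 q s i (cfS a y.α y.φ y.z s) : CL ((J.cut M.c0 i).H (J.B M.c0) a.1.1) _) (ψ i)) s1.symm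

variable (τ) in
/-- the parameter as a function on the model -/
def tcF (b : A') (a : (QQ hJ n₀ τ).O) (v : (QQ hJ n₀ τ).C a) : ℝ := xt τ.1 v.1.2.2.2 b

variable (τ) in
/-- the free coordinates -/
def pT (a : (QQ hJ n₀ τ).O) : (QQ hJ n₀ τ).C a →L[ℝ] TT τ.1 :=
  pP ((pm hJ τ.2).ch.ok _) a ∘L pF (((pm hJ τ.2).cok _).ext ((pm hJ τ.2).ch.ok _)) a

theorem inv_tc (f : ℝ → ℝ) (hf : ContDiff ℝ 1 f) (b : A') :
    InvF (QQ hJ n₀ τ) fun a v => f (tcF τ b a v) where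
  sm a := (hf.comp (((contDiff_apply ℝ ℝ b).comp (sm_xt.of_le (by simp))).comp
    (pT τ a).contDiff)).contDiffOn
  g a g v _ := congrArg (fun t => f (xt τ.1 t b)) (GrpM.t_smul _ g.1 v.1)
  e x y _ e := congrArg (fun t => f (xt τ.1 t b)) e.1.symm

theorem ax_QQ : (QQ hJ n₀ τ).Ax fun _ => True := (pm hJ τ.2).ax _

theorem trv {b : A' × Bool} (e : τ.1 = Job.fc τ'.1 b) (hb : τ'.1 b.1 = none) {x : (QQ hJ n₀ τ).X}
    (hx : (QQ hJ n₀ τ).Reg q x) : Trv (QQ hJ n₀ τ')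
      (fun a v => if b.2 then 1 - tcF τ' b.1 a v else tcF τ' b.1 a v) q (inc τ' x) := by
  have k : ∀ t, xt τ.1 t ∈ sp τ'.1 ∧ xt τ.1 t b.1 = b01 b.2 := fun t =>
    (sp_fc hb).1 ((congrArg sp e).le (xt_sp t))
  have k1 : sp τ.1 ⊆ sp τ'.1 := fun s hs => ((sp_fc hb).1 ((congrArg sp e).le hs)).1
  refine trv_of ax_QQ ax_QQ x (inc τ' x) (.id ℝ _) injective_id (sm_jC x.1)
    (Prod.ext (Prod.ext rfl (Prod.ext rfl (Prod.ext rfl (tι_eq x.2.1.ht (k _).1).symm))) rfl)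
    (fun y => ⟨y.1.ht, trivial⟩) (fun _ hv => ⟨rs_Qs hv.1 (k _).1, trivial⟩)
    (dense_ext _ (dense_th ((pm hJ τ.2).ch.ok _) x.1)) (F_jC k1 x.1)
    ((if b.2 then -1 else 1 : ℝ) • ContinuousLinearMap.proj (R := ℝ) (φ := fun _ => ℝ)
      (⟨b.1, hb⟩ : {a // τ'.1 a = none}) ∘L pT (hJ := hJ) (n₀ := n₀) τ' x.1) (c := b01 b.2) (fun v => ?_)
    (fun v w => ?_) ⟨((0, 0, 0, 1), 0), ?_⟩ hx
  · change (if b.2 then 1 - xt τ'.1 _ b.1 else xt τ'.1 _ b.1) = b01 b.2 + (if b.2 then -1 else 1 : ℝ) •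
      v.1.2.2.2 ⟨b.1, hb⟩
    simp only [xt_none hb, b01]
    split_ifs <;> simp [sub_eq_add_neg]
  · exact congrArg (fun t : ℝ => (if b.2 then -1 else 1 : ℝ) • t) ((k _).2.trans (k _).2.symm)
  · change (if b.2 then -1 else 1 : ℝ) • (1 : ℝ) ≠ 0
    split_ifs <;> simp

end Crest.Agent.X212.Kit16
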