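import Crest.Agent.X212.Mod61.Crd
import Crest.Agent.X212.End3.Pt
import Crest.Agent.X212.Map77.Num
import Crest.Agent.X212.Cht98.Fam
import Crest.Agent.X212.Abel74.Gap
import Crest.Agent.X212.An.Job

/-!
# Row 212, KIT (helper16): points, freeness, limits, groups and the index on a closed manifold
-/

set_option autoImplicit false
set_option linter.unusedSectionVars false
noncomputable section
open scoped Manifold ContDiff Topology InnerProductSpace
open MeasureTheory Set Function Filter Module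

namespace Crest.Agent.X212.Kit16
open An Prm93 Eqv71 Sob92 Mod61 Nd18
open Cmp73 (Cv ev_compact)
open Pj41 (ConnOn IsConn.on)
open Wz78 (SA nabE)
open Nk89 (gA gP)
open Map77 (n0 Aff adj_closed)
open Grp76 (dif)

variable {E : Type} [NormedAddCommGroup E] [NormedSpace ℝ E] [FiniteDimensional ℝ E]
  [MeasurableSpace E] [BorelSpace E]
  {HM : Type} [TopologicalSpace HM] {I : ModelWithCorners ℝ E HM} [I.Boundaryless]
  {M : Type} [TopologicalSpace M] [ChartedSpace HM M] [IsManifold I ∞ M]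
  [MeasurableSpace M] [T2Space M] [BorelSpace M] [SecondCountableTopology M]
  {ι : Type} [Fintype ι] {lam : Type} [Fintype lam]
  {T : Type} [NormedAddCommGroup T] [NormedSpace ℝ T]
  {𝔉 : Fam I M ι lam T} {o : Ref 𝔉} {r n m k : ℕ}
  {B : Base M ι lam} {G G' : Geo I M ι lam} {O : Set M}

/-! ### general facts -/

theorem connOn_agr (h : Cht98.Agr G G' O) {m : Md M ι lam} {W : m.Cn} (C : ConnOn B G m W O) :
    ConnOn B G' m W O :=
  have D : ∀ {N : Type} [NormedAddCommGroup N] [NormedSpace ℝ N] (f : M → N) a, ∀ x ∈ O,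
      G'.F.D a f x = G.F.D a f x := fun f a x hx => by rw [Pre.D_def, Pre.D_def, dv, dv, h.e x hx]
  ⟨C.sm, C.proj, fun a x hx => by rw [D _ a x hx, C.par a x hx],
    fun a b x hx => by
      rw [D _ a x hx, C.comp a b x hx]
      simp only [h.rel.Gam hx, id], C.sk, C.J,
    fun a x hx s => by rw [D _ a x hx, C.j a x hx, h.a x hx]⟩

/-- reducible connections have a parallel line -/
theorem lin_of_red {c : Cfg M ι lam r} (h : c.m.IsConn B G c.W) (hO : IsOpen O)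
    (hc : IsPreconnected O) (hR : Red G.F c O) : Lin G.F c O := by
  obtain ⟨ξ, p, y, hy, h0⟩ := hR
  have s : ∀ x ∈ O, SA I ξ x := fun x hx => p.sm.contMDiffAt (hO.mem_nhds hx)
  obtain ⟨t, ht⟩ := Abel74.const_of_D (F := G.F) hO hc
    (fun x hx => SA.inner (s x hx) (s x hx)) fun a x hx => by
      rw [Pre.D_def, Wz78.dv_inner (A := c.m.adW c.W) a (Wz78.adW_skw h a x) (s x hx) (s x hx),
        p.par a x hx]
      simp
  have t0 : t ≠ 0 := ht y hy ▸ inner_self_ne_zero.2 h0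
  have sr : ∀ x ∈ O, SA I (fun y => rk1 (ξ y) (ξ y)) x := fun x hx =>
    SA.app (SA.clm (ContinuousLinearMap.smulRightL ℝ c.m.A c.m.A) (SA.clm (innerSL ℝ) (s x hx)))
      (s x hx)
  refine ⟨fun x => t⁻¹ • rk1 (ξ x) (ξ x), fun x hx => (SA.smul contMDiffAt_const
    (sr x hx)).contMDiffWithinAt, fun x hx => ?_⟩
  have n : ‖ξ x‖ ^ 2 = t := by rw [← ht x hx, real_inner_self_eq_norm_sq]
  refine ⟨fun v w => ?_, ?_, ?_, ?_, fun a => ?_⟩
  · simp [real_inner_smul_left, real_inner_smul_right, real_inner_comm v, mul_comm]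
  · ext1 v; simp [n, smul_smul, t0, mul_comm _ t, mul_assoc]
  · ext1 v; simp [Wz78.pg_of_mem (p.mem x hx)]
  · rw [ContinuousLinearMap.toLinearMap_smul, map_smul]
    erw [LinearMap.trace_smulRight]
    simp [n, t0]
  · refine (Wz78.nabE_smul (A := c.m.adW c.W) a contMDiffAt_const (sr x hx)).trans ?_
    have : nabE I G.F.e (c.m.adW c.W) a (fun y => rk1 (ξ y) (ξ y)) x = 0 := by
      ext1 w
      have hc : SA I (fun _ : M => w) x := contMDiffAt_const
      have := Wz78.nab_app' (e := G.F.e) (A := c.m.adW c.W) a (sr x hx) hc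
      simp only [Wz78.rk1_apply] at this
      rw [Wz78.nab_smul a ((s x hx).inner hc) (s x hx),
        Wz78.dv_inner a (Wz78.adW_skw h a x) (s x hx) hc, p.par a x hx] at this
      simpa using this
    simp [this]

/-- an equivalence sees the connection over `O` only -/
theorem eqOn_W {F : Fr I M ι} {c c' : Cfg M ι lam r} {W : c.m.Cn} {u : M → CL c.m.V c'.m.V}
    {ζ : Circle} (e : EqOn B F O c c' u ζ) (hW : ∀ a, ∀ x ∈ O, W a x = c.W a x) :
    EqOn B F O ⟨c.m, W, c.Φ, c.z⟩ c' u ζ :=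
  ⟨e.m, fun x hx a => by simpa only [hW a x hx] using e.W x hx a, e.Φ, e.z⟩

/-- without spinor and `z` the phase does not matter -/
theorem eqOn_one {F : Fr I M ι} {c c' : Cfg M ι lam r} {u : M → CL c.m.V c'.m.V} {ζ : Circle}
    (e : EqOn B F O c c' u ζ) (h : r = 0 → ∀ x ∈ O, c.Φ x = 0) :
    ∃ ξ : Circle, (r = 0 → ξ = 1) ∧ EqOn B F O c c' u ξ := by
  rcases eq_or_ne r 0 with rfl | hr
  · exact ⟨1, fun _ => rfl, e.m, e.W, fun x hx => by
      simpa only [h rfl x hx, map_zero, cs_zero] using e.Φ x hx, Subsingleton.elim _ _⟩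
  · exact ⟨ζ, fun k => (hr k).elim, e⟩

variable (𝔉) in
/-- admissible over `Om`, with the spinor on `Om'` -/
structure AdO (t : T) (c : Cfg M ι lam r) : Prop where
  ht : t ∈ 𝔉.Q
  ok : c.m.OK I 𝔉.B
  conn : ConnOn 𝔉.B (𝔉.G t) c.m c.W 𝔉.Om
  sm : Sm I c.Φ
  pos : ∀ x, c.m.pp 𝔉.B x (c.Φ x) = c.Φ x
  off : ∀ x ∉ 𝔉.Om', c.Φ x = 0

theorem adO_pnt (h : 𝔉.OK) (y : Pnt o r) : AdO 𝔉 y.t y.cfg :=
  have a := y.ad0 h
  ⟨y.ht, a.ok, IsConn.on a.conn _, a.sm, a.pos, y.off h⟩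

theorem AdO.glue (h : 𝔉.OK) {t : T} {c : Cfg M ι lam r} (a : AdO 𝔉 t c) :
    ∃ W, c.m.IsConn 𝔉.B (𝔉.G t) W ∧ ∀ b, ∀ x ∈ 𝔉.Om, W b x = c.W b x := by
  classical
  obtain ⟨V, hV⟩ := Spn45.exists_conn h.B (h.G t a.ht) a.ok
  refine ⟨fun b x => if x ∈ 𝔉.Om then c.W b x else V b x, ConnOn.isConn (.of_local fun x _ => ?_)
    a.ok, fun b x hx => if_pos hx⟩
  by_cases hx : x ∈ 𝔉.Om
  · exact ⟨_, hx, a.conn.congr h.Om.2 fun b x hx => if_pos hx⟩
  · exact ⟨_, mem_compl hx, (IsConn.on hV _).congr h.Om.1.isOpen_compl fun b x hx => if_neg hx⟩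

/-! ### freeness -/

/-- every component carries a spinor or is irreducible -/
def Irr (y : Pnt o r) : Prop := ∀ x ∈ 𝔉.Om, (∃ x' ∈ connectedComponent x, y.cfg.Φ x' ≠ 0) ∨
  x ∉ 𝔉.Om' ∧ ¬Red (𝔉.G y.t).F y.cfg (connectedComponent x)

open End14 in
theorem triv_one (h : 𝔉.OK) {y : Pnt o r} (H : Irr y) {w : M → CL o.m.V o.m.V} (e : y.Eq y w 1) :
    (∀ x ∈ 𝔉.Om, ∃ t : ℝ, w x = t • o.m.p x) ∧ ∀ x ∈ 𝔉.Om', w x = o.m.p x := by
  have h0 : ∀ x ∈ 𝔉.Om, (∃ x' ∈ connectedComponent x, y.cfg.Φ x' ≠ 0) → w x = o.m.p x :=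
    fun x hx ⟨x', h1, h2⟩ => by
    have : dif o w x = 0 := by
      rw [← norm_eq_zero, ← norm_dif h e hx h1, norm_eq_zero]
      exact dif_zero h e (h.Om.connectedComponent_subset hx h1) h2
    rw [dif, indicator_of_mem hx] at this
    rw [← sub_eq_zero, ← Wz78.opL_hsL (w x - _), this, map_zero]
  refine ⟨fun x hx => ?_, fun x hx => h0 x (h.sub hx) ((H x (h.sub hx)).resolve_right fun k => k.1 hx)⟩
  rcases H x hx with k | ⟨-, k⟩
  · exact ⟨1, by rw [one_smul, h0 x hx k]⟩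
  obtain ⟨t, ht⟩ := w_eq h e hx
  have hs := Std94.sm_pg h.B o.ok
  have C : o.m.IsConn 𝔉.B (𝔉.G y.t) (o.W y.t y.α) := (y.ad0 h).conn
  have : o.m.pg x (dif o w x) = 0 := by_contra fun k' => k ⟨fun z => o.m.pg z (dif o w z),
    ⟨(hs.clm_apply (sm_dif h e)).contMDiffOn, fun z _ => Wz78.pg_mem z _, fun a z hz =>
      (Wz78.pg_nab o.ok C hs a (sm_dif h e z)).trans (by
        rw [nab_dif h e (h.Om.connectedComponent_subset hx hz), map_zero]; rfl)⟩, x,
    mem_connectedComponent, k'⟩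
  exact ⟨t, by rw [ht, this, map_zero, add_zero]⟩

/-- **FREE** -/
theorem free [CompactSpace M] (h : 𝔉.OK) {y : Pnt o r} (H : Irr y) (hz : r = 0 ∨ y.z ≠ 0) :
    y.Free fun _ c => r = 0 → c = 1 := by
  intro w c al e
  have hc : (c : ℂ) ^ 2 = 1 := by
    rcases hz with hz | hz
    · simp [al hz]
    have : y.z = (c : ℂ) ^ 2 • y.z := e.z
    rw [← sub_eq_zero, ← one_smul ℂ y.z, smul_smul, ← sub_smul, smul_eq_zero, mul_one] at this
    exact (sub_eq_zero.1 (this.resolve_right hz)).symm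
  obtain ⟨s, hs, e1, e2⟩ : ∃ s : ℝ, (c : ℂ) = s ∧ (∀ x ∈ 𝔉.Om, ∃ t : ℝ, w x = t • o.m.p x) ∧
      ∀ x ∈ 𝔉.Om', w x = s • o.m.p x := by
    rcases sq_eq_one_iff.1 hc with h1 | h1
    · have := triv_one h H ((Circle.ext h1 : c = 1) ▸ e)
      exact ⟨1, h1, this.1, fun x hx => by rw [one_smul, this.2 x hx]⟩
    have := triv_one h H (w := fun x => -w x) (ceq_neg e h1)
    exact ⟨-1, by simpa using h1, fun x hx => (this.1 x hx).elim fun t k =>
      ⟨-t, (neg_eq_iff_eq_neg.1 k).trans (neg_smul _ _).symm⟩,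
      fun x hx => (neg_eq_iff_eq_neg.1 (this.2 x hx)).trans (neg_one_smul _ _).symm⟩
  have hs2 : s * s = 1 := by
    rw [hs, sq] at hc; exact_mod_cast hc
  refine ⟨fun x hx ξ hξ => ?_, fun x hx v hv => ?_, fun z => by rw [hc, one_smul]⟩
  · have m : MX o o x (w x) := me_of_meq e.m hx
    obtain ⟨t, ht⟩ := e1 x hx
    refine m.cancel (m.cj_mem (BE.refl h.B x) o.ok o.ok hξ) hξ ?_
    rw [m.cj_comp hξ, ht, ContinuousLinearMap.smul_comp, ContinuousLinearMap.comp_smul]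
    exact congrArg _ ((Wz78.g_p hξ).trans (Wz78.g_p' o.ok hξ).symm)
  · have : o.m.p x v = v := by
      rw [← hv, ← mul_apply_eq_comp, Std94.p_pp h.B (Std94.pmx o.ok x)]
    simp [cs, hs, e2 x hx, this, smul_smul, hs2]

variable [CompactSpace M]

/-! ### references and points -/

/-- modules with a connection for the reference geometry -/
def Rz (B : Base M ι lam) (G : Geo I M ι lam) : Type :=
  {x : Σ m : Md M ι lam, m.Cn // x.1.OK I B ∧ x.1.IsConn B G x.2}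

variable (𝔉) in
/-- the reference -/
@[reducible] def Rz.ref (a : Rz 𝔉.B 𝔉.G0) : Ref 𝔉 where
  m := a.1.1
  A0 := a.1.2
  Φ0 := 0
  ok := a.2.1
  conn := a.2.2
  cp := Cb_of_compact a.2.1.sp
  cρ b := Cb_of_compact (a.2.1.sρ b)
  cj := Cb_of_compact a.2.1.sj
  cA b := Cb_of_compact (a.2.2.cc.sm b)
  cΦ := Cb_const 0
  pos _ := map_zero _

instance (a : Rz 𝔉.B 𝔉.G0) : (a.ref 𝔉).B0 := ⟨rfl⟩

theorem hs_Φ (h : 𝔉.OK) {Φ : M → o.m.V} (s : Sm I Φ) (p : ∀ x, o.m.pp 𝔉.B x (Φ x) = Φ x)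
    (h0 : ∀ x ∉ 𝔉.Om', Φ x = 0) : Φ ∈ Hs 𝔉.F0.toPre o.Pp := hs_of h s fun x => by
  by_cases hx : x ∈ 𝔉.Om'
  · rw [Ref.Pp, indicator_of_mem hx, p]
  · rw [h0 x hx, map_zero]

theorem W_zero (h : o.b = 0) (t : T) (a : ι) (x : M) : o.W t 0 a x = 𝔉.W0 o.m o.A0 t a x := by
  have : o.B0 := ⟨h⟩
  simp [W_apply, Ref.A_eq]

/-- **PT**: a reference adapted to a configuration -/
theorem exists_ref (h : 𝔉.OK) {t : T} {c : Cfg M ι lam r} (a : AdO 𝔉 t c) :
    ∃ (A : c.m.Cn) (hA : c.m.IsConn 𝔉.B 𝔉.G0 A) (y : Pnt (Rz.ref 𝔉 ⟨⟨c.m, A⟩, a.ok, hA⟩) r),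
      y.t = t ∧ y.α = 0 ∧ y.φ = c.Φ ∧ y.z = c.z ∧ ∀ b, ∀ x ∈ 𝔉.Om, y.cfg.W b x = c.W b x := by
  obtain ⟨W, C, hW⟩ := a.glue h
  have H := a.ok
  have C0 := Spn45.isConn_can h.B h.G0 H
  have C1 := h.conn _ _ H C0 t a.ht
  set A := Spn45.can c.m 𝔉.G0
  let β : c.m.Cn := fun a x => ∑ b, 𝔉.Si t x a b • (W b x - 𝔉.W0 c.m A t b x)
  have C2 : c.m.IsConn 𝔉.B 𝔉.G0 (A + β) := Spn45.isConn_add C0
    ⟨fun d x => SA.sum _ fun b _ => SA.smul (Cb.sm ((h.sSi d b).cb t a.ht) x)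
      ((C.cc.sm b x).sub (C1.cc.sm b x)), fun d x => by
        simp only [β, Finset.smul_sum, smul_smul]
        rw [Finset.sum_comm]
        simp only [← Finset.sum_smul, h.PSi t a.ht]⟩
    (fun a x => (Spn45.skS c.m.V).sum_mem fun b _ => (Spn45.skS c.m.V).smul_mem _
      ((Spn45.skS c.m.V).sub_mem (C.sk b x) (C1.sk b x)))
    (fun a x => by simp only [β, Finset.sum_mul, Finset.mul_sum, smul_mul_assoc, mul_smul_comm,
      Spn45.sub_p C1 C])
    (fun a b x => by simp only [β, Finset.sum_mul, Finset.mul_sum, smul_mul_assoc, mul_smul_comm,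
      C.cc.sub_comm C1.cc])
    (fun a x => by simp only [β, Finset.sum_mul, Finset.mul_sum, smul_mul_assoc, mul_smul_comm,
      Spn45.sub_J C1 C])
    fun a x s => by simp only [β, Finset.sum_mul, Finset.mul_sum, smul_mul_assoc, mul_smul_comm,
      Spn45.sub_j C1 C]
  refine ⟨_, C2, ⟨0, c.Φ, c.z, t, zero_mem _, hs_Φ h a.sm a.pos a.off, a.ht⟩, rfl, rfl, rfl, rfl,
    fun b x hx => ?_⟩
  have e1 : ∑ d, 𝔉.S t x b d • β d x = W b x - 𝔉.W0 c.m A t b x := by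
    simp only [β, Finset.smul_sum, smul_smul]
    rw [Finset.sum_comm]
    simp only [← Finset.sum_smul, h.SSi t a.ht, smul_sub, Finset.sum_sub_distrib, C.cc.proj,
      C1.cc.proj]
  rw [← hW b x hx, eq_sub_iff_add_eq.1 e1 |>.symm]
  refine (W_zero (o := Rz.ref 𝔉 ⟨⟨c.m, A + β⟩, H, C2⟩) rfl t b x).trans ?_
  change 𝔉.W0 c.m (A + β) t b x = _
  simp only [Fam.W0, Pi.add_apply, smul_add, Finset.sum_add_distrib]
  abel

/-- **PT**: the point of a configuration over an isomorphic module -/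
theorem exists_pnt (h : 𝔉.OK) {t : T} {c : Cfg M ι lam r} (a : AdO 𝔉 t c) {u : M → CL c.m.V o.m.V}
    (hu : MEq I c.m o.m 𝔉.Om id (fun x b a => 𝔉.B.P b a x) 𝔉.B.l u) (ζ : Circle) :
    ∃ y : Pnt o r, y.t = t ∧ EqOn 𝔉.B (𝔉.G t).F 𝔉.Om c y.cfg u ζ ∧
      (∀ x, y.α x = idx (𝔉.Si t x) (.id ℝ _) (gA o t c u x)) ∧ y.φ = gP o c u ζ := by
  obtain ⟨W, C, hW⟩ := a.glue h
  have su : ∀ x ∈ 𝔉.Om, SA I u x := fun x hx => hu.su.contMDiffAt (h.Om.2.mem_nhds hx)
  have C' : o.m.IsConn 𝔉.B (𝔉.G t) (o.W t 0) :=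
    isConn_W h a.ht contMDiff_const fun x a => zero_mem _
  have e : gA o t (⟨c.m, W, c.Φ, c.z⟩ : Cfg M ι lam r) u = gA o t c u :=
    indicator_congr fun x hx => by simp only [hW _ x hx]
  obtain ⟨y, h1, h2, h3⟩ := End3.pt o h r t ⟨c.m, W, c.Φ, c.z⟩ u ζ a.ht ⟨a.ok, C, a.sm, a.pos⟩
    (fun x hx => a.off x hx.2) hu
    (.of_hcs (Grp76.sm_ind h.Om fun x hx => SA.clm
      (PiLp.continuousLinearEquiv 2 ℝ fun _ : ι => o.m.A).symm.toContinuousLinearMap
      (contMDiffAt_pi_space.2 fun b => SA.clm hsL (sa_comp ((((dv_smoothAt ((𝔉.G t).F.sm b x)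
        (su x hx)).add (sa_comp (C'.cc.sm b x) (su x hx))).sub
          (sa_comp (su x hx) (C.cc.sm b x))).neg) (sa_trn (su x hx))))) (.of_compactSpace _))
    (.of_hcs ((Grp76.sm_ind h.Om' fun x hx => SA.clm (csL o.m.J ζ)
      ((su x (h.sub hx)).app (a.sm x))).sub (Cb.sm o.cΦ)) (.of_compactSpace _))
  exact ⟨y, h1, eqOn_W (c := ⟨c.m, W, c.Φ, c.z⟩) (W := c.W) h2 fun b x hx => (hW b x hx).symm,
    e ▸ h3⟩

theorem cv_ind {α N : Type} [NormedAddCommGroup N] [NormedSpace ℝ N] {l : Filter α}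
    {f : α → M → N} {g : M → N} (hO : IsClopen O) (h : Cv I l O f g) :
    Cv I l univ (fun i => O.indicator (f i)) (O.indicator g) := .of_local fun x _ => by
  by_cases hx : x ∈ O
  · exact ⟨O, hx, h.congr' hO.2 (.of_forall fun _ _ k => indicator_of_mem k _)
      fun _ k => indicator_of_mem k _⟩
  · exact ⟨Oᶜ, hx, (Cv.const 0).congr' hO.1.isOpen_compl
      (.of_forall fun _ _ k => indicator_of_notMem k _) fun _ k => indicator_of_notMem k _⟩

/-- **NEAR**: smooth convergence gives convergence of the points -/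
theorem near (h : 𝔉.OK) (hk : 3 ≤ k) (h0 : o.Φ0 = 0) {y₀ : Pnt o r} (hα : y₀.α = 0) {α : Type}
    {l : Filter α} [l.NeBot] {t : α → T} {c : α → Cfg M ι lam r} {W₀ : o.m.Cn}
    {e : α → ι → Π x : M, TangentSpace I x} {u : ∀ i, M → CL (c i).m.V o.m.V} {ζ : α → Circle}
    (hW : ∀ b, ∀ x ∈ 𝔉.Om, y₀.cfg.W b x = W₀ b x) (ht : Tendsto t l (𝓝 y₀.t))
    (hc : ∀ᶠ i in l, AdO 𝔉 (t i) (c i) ∧ ∀ x ∈ 𝔉.Om, ∀ a, e i a x = (𝔉.G (t i)).F.e a x)
    (hl : ULim I 𝔉.B l 𝔉.Om e c ⟨o.m, W₀, y₀.φ, y₀.z⟩ u ζ) :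
    ∃ y : α → Pnt o r, Tendsto (fun i => (y i).pt k) l (𝓝 (y₀.pt k)) ∧
      ∀ᶠ i in l, (y i).t = t i ∧ EqOn 𝔉.B (𝔉.G (t i)).F 𝔉.Om (c i) (y i).cfg (u i) (ζ i) := by
  have hm : ∀ᶠ i in l, MEq I (c i).m o.m 𝔉.Om id (fun x b a => 𝔉.B.P b a x) 𝔉.B.l (u i) := by
    have := ev_compact (l := l) h.Om.1.isCompact (p := fun i x => ∃ N, IsOpen N ∧ x ∈ N ∧
      MEq I (c i).m o.m N id (fun x b a => 𝔉.B.P b a x) 𝔉.B.l (u i)) fun x hx =>
        let ⟨N, h1, h2, h3⟩ := hl.m x hx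
        (h3.prod_mk (h1.mem_nhds h2)).mono fun q hq => ⟨N, h1, hq.2, hq.1⟩
    refine this.mono fun i hi => ?_
    choose! N h1 h2 h3 using hi
    exact ⟨fun x hx => ((h3 x hx).su.contMDiffAt ((h1 x hx).mem_nhds (h2 x hx))).contMDiffWithinAt,
      fun x hx => (h3 x hx).uu x (h2 x hx), fun x hx => (h3 x hx).uu' x (h2 x hx),
      fun x hx => (h3 x hx).J x (h2 x hx), fun x hx => (h3 x hx).ρ x (h2 x hx),
      fun x hx => (h3 x hx).j x (h2 x hx)⟩
  have k1 : ∀ i, ∃ y : Pnt o r, AdO 𝔉 (t i) (c i) ∧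
      MEq I (c i).m o.m 𝔉.Om id (fun x b a => 𝔉.B.P b a x) 𝔉.B.l (u i) → _ := fun i =>
    (em _).elim (fun b => (exists_pnt h b.1 b.2 (ζ i)).imp fun _ k _ => k)
      fun b => ⟨y₀, fun b' => (b b').elim⟩
  choose y hy using k1
  have hy := (hc.and hm).mono fun i b => hy i ⟨b.1.1, b.2⟩
  refine ⟨y, ?_, hy.mono fun i b => ⟨b.1, b.2.1⟩⟩
  have cv := fun {N : Type} [NormedAddCommGroup N] [NormedSpace ℝ N] {f : T → M → N} =>
    sb_cv (F := 𝔉.F0.toPre) (f := f) h.opn y₀.ht ht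
  have c0 : ∀ a, Cv I l univ (fun i => o.W (t i) 0 a) (o.W y₀.t 0 a) := fun a => by
    have := cv ((Map77.sb_u0 o h).clm (opL ∘L Grp76.pj o.m.A a ∘L Map77.fa))
    refine this.congr' isOpen_univ (.of_forall fun i x _ => ?_) fun x _ => ?_ <;>
      simp [W_apply, Map77.u0, Map77.base]
  refine (tendsto_ofV h (fun i => (y i).hα) y₀.hα ?_ (by omega)).prodMk_nhds
    ((tendsto_ofV h (fun i => (y i).hφ) y₀.hφ ?_ (by omega)).prodMk_nhds
      ((hl.z.congr' (hy.mono fun i b => b.2.1.z.symm)).prodMk_nhds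
        (ht.congr' (hy.mono fun i b => b.1.symm))))
  · have c1 := (Cv.pi fun a => Cv.sum fun b => (cv (h.sSi a b)).smul (cv_ind h.Om
      (((hl.A b).add (((c0 b).mono le_rfl (subset_univ _)).sub (Cv.fixed' ((y₀.ad0 h).conn.cc.sm b)
        ) |>.mul (Cv.fixed' o.ok.sp))).neg.clm hsL))).clm
        (PiLp.continuousLinearEquiv 2 ℝ fun _ : ι => o.m.A).symm.toContinuousLinearMap
    refine c1.congr' isOpen_univ (((hc.and hm).and hy).mono fun i hi x _ => ?_) fun x _ => ?_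
    · rw [hi.2.2.2.1]; ext1 a; rw [idx_apply]
      refine Finset.sum_congr rfl fun b _ => congrArg _ ?_
      by_cases hx : x ∈ 𝔉.Om
      · rw [gA, indicator_of_mem hx, indicator_of_mem hx, hW b x hx,
          ← show _ = o.m.p x from hi.1.2.uu' x hx]
        refine congrArg hsL ?_
        rw [show dv I (e i b) (u i) x = (𝔉.G (t i)).F.D b (u i) x by
          rw [Pre.D_def, dv, dv, hi.1.1.2 x hx]]
        ext1 v
        simp only [neg_apply, add_apply, sub_apply, mul_apply_eq_comp,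
          ContinuousLinearMap.comp_apply]
        abel
      · simp [gA, hx]
    · ext1 a; simp [Pnt.cfg, hα]
  · refine (cv_ind h.Om' (hl.Φ.mono le_rfl h.sub)).congr' isOpen_univ
      (hy.mono fun i b x _ => by rw [b.2.2.2, gP, h0, Pi.zero_apply, sub_zero]) fun x _ => ?_
    by_cases hx : x ∈ 𝔉.Om'
    · rw [indicator_of_mem hx]
    · rw [indicator_of_notMem hx]
      have := y₀.off h x hx
      simp only [Pnt.cfg, h0, zero_add] at this
      exact this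

/-! ### the index -/

open Idg99 Ind95 in
/-- the index of the gauge fixed linearisation -/
def ix (B : Base M ι lam) (G : Geo I M ι lam) (O O' : Set M) (c : Cfg M ι lam r) : ℝ :=
  ∫ x in O, (8 * c.m.kd B G.F c.W x - 3 * (eud G.F B.o x + sgd G.F B.o x) / 2) ∂G.F.μ
    + ∫ x in O', (lad B G x / 2 - 2 * c.m.kd B G.F c.W x - sgd G.F B.o x / 2) ∂G.F.μ

theorem ix_congr {O' : Set M} {c c' : Cfg M ι lam r} (hO : IsOpen O) (hO' : IsOpen O') (h : O' ⊆ O)
    (e : ∀ x ∈ O, c'.m.kd B G.F c'.W x = c.m.kd B G.F c.W x) : ix B G O O' c' = ix B G O O' c :=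
  congrArg₂ (· + ·) (setIntegral_congr_fun hO.measurableSet fun x hx => by simp only [e x hx])
    (setIntegral_congr_fun hO'.measurableSet fun x hx => by simp only [e x (h hx)])

variable [FiniteDimensional ℝ T] (h : 𝔉.OK) (h4 : finrank ℝ E = 4)
include h h4

theorem n0_ix (y : Pnt o r) : (n0 y : ℝ) = ix 𝔉.B (𝔉.G y.t) 𝔉.Om 𝔉.Om' y.cfg := Map77.n0_eq h h4 y

theorem n0_t {y y' : Pnt o r} (e : y'.t = y.t) : n0 y' = n0 y := by
  have := Idg99.ind_md h.B (h.G _ y.ht) o.ok (y.ad0 h).conn h4 h.Om h.Om' (Map77.ok_bd o h) rfl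
    (Map77.cb_uy h y').choose_spec.1
  rw [← e] at this
  exact_mod_cast this.trans (e ▸ Map77.n0_eq h h4 y).symm

/-- **the index is locally constant** -/
theorem n0_ev (y : Pnt o r) : ∀ᶠ t in 𝓝 y.t, ∀ y' : Pnt o r, y'.t = t → n0 y' = n0 y := by
  have A := adj_closed h
  obtain ⟨f, hf⟩ := A.rp (A.aff_eq0 (o := o) (r := r) (n := 0) (m := 0)) 7 le_rfl
  let p : T → o.C r 7 := fun t => ((y.pt 7).1, (y.pt 7).2.1, y.z, t)
  have c : ContinuousAt (fun t => (fderiv ℝ f (p t)).prod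
      (Map77.row (fun t => (𝔉.G t).F) 7 y t)) y.t :=
    ((ContinuousLinearMap.prodₗᵢ ℝ).continuous.continuousAt).comp (ContinuousAt.prodMk
      (ContinuousAt.comp (g := fderiv ℝ f) (f := p) ((hf.1.contDiffAt
        ((isOpen_U h).mem_nhds y.mem_U)).continuousAt_fderiv (by simp)) (by fun_prop))
      ((A.sm_row y).continuousOn.continuousAt (h.opn.mem_nhds y.ht)))
  have F : ∀ t (ht : t ∈ 𝔉.Q), Fred93.Fr ((fderiv ℝ f (p t)).prod
      (Map77.row (fun t => (𝔉.G t).F) 7 y t))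
      (n0 ({ y with t := t, ht := ht } : Pnt o r) + 2 * r + finrank ℝ T - 2 * (0 : ℕ) - (0 : ℕ)) :=
    fun t ht => by
      have := A.fred A.aff_eq0 le_rfl { y with t := t, ht := ht } (Map77.fr_n0 h _ 7) hf
      rwa [Map77.sig, ← Map77.ut_self] at this
  filter_upwards [c.eventually (F _ y.ht).eventually, h.opn.mem_nhds y.ht] with t h1 h2 y' e
  have := h1.unique (F t h2)
  rw [n0_t h h4 (y := { y with t := t, ht := h2 }) e]
  change n0 y + _ + _ - _ - _ = _ at this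
  omega

omit h4 in
/-- **the groups** -/
theorem exists_grp [o.B0] (h0 : o.Φ0 = 0) : ∃ Γ : GrpM o r 8 fun _ c => r = 0 → c = 1,
    ∀ n m (e : T → PtX M ι lam r n m) y, Aff o (fun t => (𝔉.G t).F) r n m e →
      Γ.Slc e (n0 y + 2 * r + finrank ℝ T - 2 * n - m - (min r 1 : ℕ)) y := by
  rcases eq_or_ne r 0 with hr | hr
  · rw [show (fun (_ : M → CL o.m.V o.m.V) (c : Circle) => r = 0 → c = 1) = fun _ c => c = 1 from
      funext fun _ => funext fun c => propext ⟨fun k => k hr, fun k _ => k⟩]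
    refine ⟨Grp76.gmA o h (by norm_num) r, fun n m e y he => ?_⟩
    simpa only [hr, zero_le, min_eq_left, Nat.cast_zero, sub_zero] using
      Map77.slc_gmA h (by norm_num) y he
  · rw [show (fun (_ : M → CL o.m.V o.m.V) (c : Circle) => r = 0 → c = 1) = fun _ _ => True from
      funext fun _ => funext fun c => propext ⟨fun _ => trivial, fun _ k => (hr k).elim⟩]
    refine ⟨Grp76.gmC o h (by norm_num) r h0, fun n m e y he => ?_⟩
    rw [min_eq_right (Nat.one_le_iff_ne_zero.2 hr)]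
    exact Map77.slc_gmC h (by norm_num) y h0 (.inr hr) he

end Crest.Agent.X212.Kit16
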