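import Crest.Agent.X212.Brk99.Glue
import Crest.Agent.X212.Rb56.Main
import Crest.Agent.X212.Tm38.Abw
import Crest.Agent.X212.Geo48.Xi

/-!
# Row 212, SB GLU-1 (helper16): the fillers of the broken lens walls are pasted in
-/

set_option autoImplicit false
set_option linter.unusedSectionVars false
noncomputable section
open scoped Manifold ContDiff Topology InnerProductSpace
open MeasureTheory Set Function Filter Classical

namespace Crest.Agent.X212.Kit16.Sb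
open An M G75 Jb7 Ins26 Nd18 Rf65 Pte3 Fk18 Kl48 Pj41 Rb56
open An.Job (Sol)
open Rdc90 (Bs)
open Abel74 (RedOn sq_of_norm)
open Tmp64 (AdmOn Eq0 admOn_univ)
open Eqv71 (ad0)

section nk
variable {κ lam : Type} [Fintype κ] [Fintype lam] {Y : Mf 3} [CompactSpace Y.M] {r : ℕ}
  {D : Nd18.YD Y.I Y.M κ lam} {Z : Mf 4} {B : Base Z.M (Option κ) lam} {G : Geo Z.I Z.M (Option κ) lam}

/-- the connection converges if the limit has no spinor -/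
theorem lim_con {K : Nk D B G} {c : Cfg Z.M (Option κ) lam r} {β : YC Y.M κ lam} {ζ : Circle}
    {l : Filter ℝ} (h : K.Lim c β ζ l) (h0 : ∀ y, β.Φ y = 0) : K.Lim c.con β ζ l := by
  obtain ⟨u, h⟩ := h
  refine ⟨u, fun k η hη => (h k η hη).imp fun S ⟨h1, h2, H⟩ => ⟨h1, h2, H.op, H.m, H.A,
    fun w _ x _ => ?_⟩⟩
  have e : YD.dP (K.pb c.con) β u ζ = fun _ => 0 := funext fun z =>
    sub_eq_zero.2 ((congrArg (cs β.m.J ζ) (map_zero (u z))).trans (by simp [cs, h0]))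
  have : ∀ w : List (Option κ), D.Z.Dw w (fun _ => (0 : β.m.V)) = fun _ => 0 := fun w => by
    induction w with
    | nil => rfl
    | cons a w ih =>
      rw [Pre.Dw, show D.Z.D a (fun _ => (0 : β.m.V)) = fun _ => 0 from funext fun x => by
        simp [Pre.D_def, Sob92.dv]; rfl]
      exact ih
  rw [e, this]
  simpa using hη.le

end nk

variable {κ lam : Type} [Fintype κ] [Fintype lam] [DecidableEq lam] {Lm : LM κ lam}
  {y₀ : G75.YD κ lam} {S : Scene Lm} {P : Pk y₀} {z : Z0 P S} {Z : Z1 z} {R : ℕ} {T δ : ℝ}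
  {q : Z.F.Wi →₀ ℝ} {y : Z.Ob} {π : Reg S.A} {b : Bool} {Adm : (Z.F.Wi →₀ ℝ) → Prop}

/-- the insides of the broken lens walls of a region -/
def In (D : S.Dat) (e : S.M.Cl) (π : Reg S.A) : Set (D.W.Z e).M :=
  ⋃ l ∈ Fk18.LE e π, D.W.pc e (hp l.1 false)

variable (y π) in
/-- `x` is the connection of `y` on the outer piece and fills the lens walls -/
structure Pst (x : Cfg (z.D.W.Z Z.e).M (Option κ) (lam ⊕ lam) 0) : Prop where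
  adm : x.Adm (Z.J.B Z.e) (Z.J.G Z.e y.s)
  mtc : ∀ a ∈ Z.e.1, a ∈ S.M.sys.inn π → S.Mtc z.D Z.i Z.F.m Z.e (Z.F.Θ y.s) a x
  red : ∃ ξ, RedOn (Z.J.G Z.e y.s).F x.m x.W
    (z.D.W.up (Geo48.dc Z.e π) Z.e ⁻¹' z.D.W.pc (Geo48.dc Z.e π) π) ξ
  un : z.D.W.up (Geo48.dc Z.e π) Z.e ⁻¹' z.D.W.pc (Geo48.dc Z.e π) π =
    z.D.W.pc Z.e (ou Z.e π) ∪ In z.D Z.e π
  cl : IsClopen (In z.D Z.e π)
  dj : Disjoint (z.D.W.pc Z.e (ou Z.e π)) (In z.D Z.e π)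
  Fg : ∀ w ∈ z.D.W.pc Z.e (ou Z.e π),
    ‖x.m.Fg (Z.J.G Z.e y.s).F x.W w‖ ^ 2 = ‖y.x.m.Fg (Z.J.G Z.e y.s).F y.x.W w‖ ^ 2
  kd : ∀ w ∈ z.D.W.pc Z.e (ou Z.e π), x.m.kd (Z.J.B Z.e) (Z.J.G Z.e y.s).F x.W w = y.kd w
  L2 : IntegrableOn (fun w => ‖x.m.Fg (Z.J.G Z.e y.s).F x.W w‖ ^ 2) (In z.D Z.e π) (Z.J.G Z.e y.s).F.μ
  lev : Z1.kp y (ou Z.e π) + ∫ w in In z.D Z.e π, x.m.kd (Z.J.B Z.e) (Z.J.G Z.e y.s).F x.W w
    ∂(Z.J.G Z.e y.s).F.μ ≤ Z1.Kp y π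

variable (h0 : z.OK R) (h1 : Z.OK T)
include h0 h1

/-- the limits at lens walls are flat -/
theorem bs_of (ly : LyStmt Lm) (hW : AllJ Lm fun J _ a => WlStmt (J.xs a).D) (hy : Sol Z.ce q y)
    {l : S.ls} (hl : l.1 ∈ Z.e.1) (b : Bool) : Bs (Z.J.xs l).D (y.β l b) := by
  have mj := Z1.mj h0 h1 ly (okJ h1) (loc h1)
  have n : l.1 ≠ z.t.a := fun e => (h0.cn.ok.fz _ h0.t.fz.1).2.1 (e ▸ l.2)
  have c : l.1 ∈ cylW Z.e := ⟨hl, h0.cn.ok.lsp _ l.2⟩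
  exact (hW _ _ _ _ _ _ Z.J Z.e l _ 0 (mj.ok.xs _).1.yd (mj.nil _ n).1 (mj.py _ c n)).1 _ (hy.crit _ c _)

/-- the broken walls inside a region are lens walls -/
theorem mem_LE' (hπ : π ∈ Z.Rg b) {a : S.A} (k : a ∈ Z.e.1) (k' : a ∈ S.M.sys.inn π) :
    ∃ h : a ∈ S.ls, (⟨a, h⟩ : S.ls) ∈ Fk18.LE Z.e π :=
  have l := (e_sub h0 h1 k).resolve_left fun l => (mem_Rg.1 hπ).1.not_inn a l k'
  ⟨l, mem_LE.2 ⟨k, k'⟩⟩

theorem up_dc (hπ : π ∈ Z.Rg b) : S.M.Up (Geo48.dc Z.e π) Z.e :=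
  Geo48.up_dc fun _ k j k' => let ⟨l, _⟩ := mem_LE' h0 h1 hπ k k'; h0.cn.ok.lsp _ l j

theorem pc_dc (hπ : π ∈ Z.Rg b) : S.M.sys.Piece (Geo48.dc Z.e π).1 π :=
  Geo48.piece_dc (mem_Rg.1 hπ).1.toIsReg fun a k =>
    ((c0_iff h0 h1 a).1 ((mem_Rg.1 hπ).1.bd_subset k)).1

/-- **GLU-1** -/
theorem pst (sm : Z.Sm) (d0 : 0 < δ) (hX : Z.LxAt δ Adm) (ha : Adm q) (hy : Sol Z.ce q y)
    (hπ : π ∈ Z.Rg b) (bs : ∀ l ∈ Fk18.LE Z.e π, Bs (Z.J.xs l).D (y.β l true))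
    (hr : ∃ ξ, RedOn (Z.J.G Z.e y.s).F y.x.m y.x.W (z.D.W.pc Z.e (ou Z.e π)) ξ) : ∃ x, Pst y π x := by
  obtain ⟨f, m, h2, h3⟩ := exists_fl (π := π) hX ha hy
  obtain ⟨ξ, hξ⟩ := hr
  have J0 := (h1.F.R _ (ne0 h1) 0).1
  have pO := (hy.ok (okJ h1) (mem h1)).2
  have hB := (z.D.Λ Z.i).B_ok Z.F.m Z.e
  have hG := (z.D.Λ Z.i).G_ok Z.F.m pO
  have p0 := (sm.pc b π hπ).1
  have p1 : ∀ l ∈ Fk18.LE Z.e π, S.M.sys.Piece Z.e.1 (hp l.1 false) := fun l k =>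
    ((sm.ins b π hπ _).2 (.inr ⟨l, k, rfl⟩)).1
  have n1 : ∀ l ∈ Fk18.LE Z.e π, ou Z.e π ≠ hp l.1 false := fun l hl e =>
    nomatch (ou_LE hl).symm.trans ((congrFun e l).trans hp_self)
  have a0 : y.x.con.Adm (Z.J.B Z.e) (Z.J.G Z.e y.s) := hy.sol.toAdm.con
  have a1 : ∀ l ∈ Fk18.LE Z.e π, (f l).x.con.Adm (Z.J.B Z.e) (Z.J.G Z.e y.s) := fun l k =>
    let g := (h2 l k).go.adm
    (show (f l).s = y.s from (h2 l k).s) ▸ ⟨g.ok, g.conn, g.sm, g.pos, .inl rfl⟩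
  have c0 := Cyl58.isClopen_pc z.D.W.toCaps p0
  have c1 := fun l k => Cyl58.isClopen_pc z.D.W.toCaps (p1 l k)
  have dj : (Fk18.LE Z.e π : Set S.ls).Pairwise (Disjoint on fun l => z.D.W.pc Z.e (hp l.1 false)) :=
    fun l k l' k' e => Cyl58.disjoint_pc z.D.W.toCaps (p1 l k) (p1 l' k') fun j => e (Subtype.ext (hp_inj j))
  have dj' := fun l k => Cyl58.disjoint_pc z.D.W.toCaps p0 (p1 l k) (n1 l k)
  obtain ⟨x, hx, E⟩ := Tm38.paste (G := Z.J.G Z.e y.s) hG.P (Finset.insertNone (Fk18.LE Z.e π))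
    (O := fun i => i.elim (z.D.W.pc Z.e (ou Z.e π)) fun l => z.D.W.pc Z.e (hp l.1 false))
    (c := fun i => i.elim y.x.con fun l => (f l).x.con)
    (by rintro (_ | l) k; exacts [c0, c1 l (Finset.some_mem_insertNone.1 k)])
    (by
      rintro (_ | l) k (_ | l') k' e
      exacts [(e rfl).elim, dj' l' (Finset.some_mem_insertNone.1 k'),
        (dj' l (Finset.some_mem_insertNone.1 k)).symm, dj (Finset.some_mem_insertNone.1 k)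
          (Finset.some_mem_insertNone.1 k') fun j => e (congrArg _ j)])
    (by rintro (_ | l) k; exacts [a0, a1 l (Finset.some_mem_insertNone.1 k)]) a0
  obtain ⟨u, E0⟩ := E none Finset.none_mem_insertNone
  have E1 := fun l (k : l ∈ Fk18.LE Z.e π) => Tm38.pc_all (J := Z.J0) (ε := 0) J0 d0 (h2 l k).s (p1 l k)
    (h2 l k).go hx (E (some l) (Finset.some_mem_insertNone.2 k)).choose_spec
  have b1 := (admOn_univ.2 a0).mono (subset_univ (z.D.W.pc Z.e (ou Z.e π)))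
  have b2 := (admOn_univ.2 hx).mono (subset_univ (z.D.W.pc Z.e (ou Z.e π)))
  have un : z.D.W.up (Geo48.dc Z.e π) Z.e ⁻¹' z.D.W.pc (Geo48.dc Z.e π) π =
      z.D.W.pc Z.e (ou Z.e π) ∪ In z.D Z.e π := Set.ext fun w => by
    rw [mem_preimage, Geo48.up_mem_pc z.D.W.toCaps (up_dc h0 h1 hπ) (pc_dc h0 h1 hπ), In, mem_union,
      mem_iUnion₂]
    refine ⟨fun ⟨ρ, k, k'⟩ => ?_, ?_⟩
    · obtain rfl | ⟨l, hl, rfl⟩ := (sm.ins b π hπ ρ).1 k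
      exacts [.inl k', .inr ⟨l, hl, k'⟩]
    · rintro (k | ⟨l, hl, k⟩)
      exacts [⟨_, sm.pc b π hπ, k⟩, ⟨_, (sm.ins b π hπ _).2 (.inr ⟨l, hl, rfl⟩), k⟩]
  have ms := fun l k => (c1 l k).isOpen.measurableSet
  refine ⟨x.con, hx, fun a k k' => ?_, ?_, un, (Fk18.LE Z.e π).finite_toSet.isClopen_biUnion c1,
    disjoint_iUnion₂_right.2 dj',
    fun w k => Loc66.norm_Fg_loc E0.iso c0.isOpen b1.ok b2.ok (b1.conn.sm · w k) (b2.conn.sm · w k) E0.par k,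
    fun w k => Loc66.kd_loc E0.iso c0.isOpen b1.ok b2.ok (b1.conn.sm · w k) (b2.conn.sm · w k) E0.par k,
    integrableOn_finset_iUnion.2 fun l k => ((E1 l k).2.1 (h2 l k).ea).1, ?_⟩
  · obtain ⟨l, hl⟩ := mem_LE' h0 h1 hπ k k'
    have ac : ∀ b, Act Z.F.m Z.e a (some b) (Z.F.Θ y.s) := fun b =>
      ⟨h0.cn.ok.lsp _ l, hy.br (okJ h1) (mem h1), pO, k⟩
    refine Tm38.mtc (J := Z.J0) J0 ac (bs _ hl) fun b => ?_
    cases b
    · exact (E1 _ hl).2.2.2.2 a false (ac false) _ hp_self (bs _ hl) (h2 _ hl).eqv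
    · exact ⟨_, Eqv71.lim_pre hB c0.isOpen (un_one z.D.W.toCaps Z.e _ ▸ J0.end_sub (ac true)
        (P := {ou Z.e π}) (fun _ e => e ▸ p0) ⟨_, rfl, ou_LE hl⟩) (bs _ hl).adm (ad0 hx) (ad0 a0)
        ((E0.symm b1 b2).cEq hB b2 b1) (lim_con (hy.lim a true (ac true)) (bs _ hl).zr)⟩
  · rw [un]
    refine Geo48.red_patch (P := z.D.W.pc Z.e) (T := S.M.sys.Piece Z.e.1)
      (fun _ => Cyl58.isOpen_pc z.D.W.toCaps) (fun _ _ _ k k' => Cyl58.pc_unique z.D.W.toCaps k k')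
      (Cyl58.exists_pc z.D.W.toCaps) fun ρ hρ => ?_
    by_cases e : ρ = ou Z.e π
    · exact ⟨_, Geo48.red_mono (Brk99.red_iso hξ E0.iso b1.ok b2.ok b1.conn.sk b2.conn.sk E0.par)
        (e ▸ inter_subset_right)⟩
    by_cases e' : ∃ l ∈ Fk18.LE Z.e π, ρ = hp l.1 false
    · obtain ⟨l, hl, rfl⟩ := e'
      obtain ⟨η, k, n⟩ := (E1 l hl).2.2.1 (h2 l hl).un
      exact ⟨η, fun w hw => k.sm.contMDiffAt ((c1 l hl).isOpen.mem_nhds hw.2),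
        fun w hw => k.mem w hw.2, fun w hw => sq_of_norm hB hx.ok (k.mem w hw.2) (by
          rw [n w hw.2]; norm_num), fun w hw a => k.par a w hw.2⟩
    have n : ∀ w, w ∉ (z.D.W.pc Z.e (ou Z.e π) ∪ In z.D Z.e π) ∩ z.D.W.pc Z.e ρ := by
      rintro w ⟨k | k, k'⟩
      · exact e (Cyl58.pc_unique z.D.W.toCaps hρ p0 k' k)
      · obtain ⟨l, hl, k⟩ := mem_iUnion₂.1 k
        exact e' ⟨l, hl, Cyl58.pc_unique z.D.W.toCaps hρ (p1 l hl) k' k⟩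
    exact ⟨0, fun w k => (n w k).elim, fun w k => (n w k).elim, fun w k => (n w k).elim,
      fun w k => (n w k).elim⟩
  · rw [h3, In, integral_biUnion_finset _ ms dj fun l k => (E1 l k).2.2.2.1.1,
      Finset.sum_congr rfl fun l k => (E1 l k).2.2.2.1.2]
    exact le_add_of_nonneg_right (Nat.cast_nonneg m)

end Crest.Agent.X212.Kit16.Sb
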