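import Crest.Agent.X212.Sb84.Defs
import Crest.Agent.X212.Kit16.Sb1

/-!
# Row 212, SB GLU-2 (helper16): the job half of `Sb84.Gl2Stmt`
-/

set_option autoImplicit false
set_option linter.unusedSectionVars false
noncomputable section
open scoped Manifold ContDiff Topology InnerProductSpace
open MeasureTheory Set Function Filter Classical

namespace Crest.Agent.X212.Kit16.Sb
open An M G75 Jb7 Ins26 Nd18 Rf65 Pte3 Fk18 Kl48 Pj41 Rb56 Sb84 Cht98 Cyl58
open An.Job (Sol)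
open Abel74 (RedOn)
open Geo48 (dc)

section world
variable {X : Mf 4} {A κ : Type} [Fintype A] [Fintype κ] {M : Mark X A κ} {c : M.Cl} {a : A} {x : X.M}
  {b : Bool}

/-- off the band the height is large -/
theorem three_le (h : x ∈ (M.sys.w a).sd b) (h' : x ∉ (M.sys.w a).band) : 3 ≤ pm b * (M.bn a).s x := by
  have h1 := (M.bn a).three_le_abs_s (x := x) fun k => h' ((M.bn a).slab_subset _ k)
  have h2 := (M.bn a).mem_sd.1 h
  rw [← abs_of_pos h2, abs_mul, abs_pm, one_mul]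
  exact h1

variable {y : Bool → A} {cs δ : ℝ} {p : Prm A} {w : Wd} {t : Bool → ℝ} (T : Two M y cs c p)
  (ht : ∀ e, p.2 (y e) = t e) (C : Caps M)
include T ht

theorem t_lt (e : Bool) : t e < 1 := ht e ▸ (T.par.1 _).2.lt_of_ne fun k => (T.fr e).1 (T.inf ▸ k)

theorem cont_ar (e : Bool) : Continuous (ar C c (t e) (y e)) :=
  (continuousOn_univ.1 ((contDiffOn_len _ _).continuousOn.mono fun _ _ => .inl (t_lt T ht e))).comp
    (sm_hZ C (.inr (T.fr e))).continuous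

theorem cont_g (ok : w.OK t δ) : Continuous (w.g C c t y) :=
  ((ok.sm true).continuous.comp (cont_ar T ht C true)).mul ((ok.sm false).continuous.comp (cont_ar T ht C false))

/-- between the necks -/
theorem mid (ok : w.OK t δ) {z : (C.Z c).M} (h : ∀ e, 1 ≤ pm e * hZ C c (y e) z) :
    w.g C c t y z = 1 ∧ z ∉ w.K C c t y := by
  have m := fun e => (strictMonoOn_len (t e) false).monotoneOn
  have h1 : w.s' true < ar C c (t true) (y true) z := (ok.s1 true).trans_le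
    (m true (.inl (t_lt T ht _)) (.inl (t_lt T ht _)) (by simpa [pm] using h true))
  have h2 : ar C c (t false) (y false) z < w.s false := lt_of_le_of_lt ((m false (.inl (t_lt T ht _))
    (.inl (t_lt T ht _)) (show _ ≤ pm false by have := h false; simp [pm] at this ⊢; linarith)).trans_eq
      (len_pm _ _)) (ok.s0 false)
  refine ⟨by rw [Sb84.Wd.g, ok.hi _ _ h1.le, ok.lo _ _ h2.le]; simp, fun k => ?_⟩
  obtain ⟨_ | _, k⟩ := mem_iUnion.1 k
  exacts [h2.not_ge k.1, h1.not_ge k.2]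

end world

variable {κ lam : Type} [Fintype κ] [Fintype lam] [DecidableEq lam] (Lm : LM κ lam)

/-- the world half (helper2) -/
def GwStmt : Prop := ∀ (S : Scene Lm) (D : S.Dat) i (m c : S.M.Cl) p π (x : Bool → S.A) cs (w : Wd) t δ γ
  (y : Cfg (D.W.Z c).M (Option κ) (lam ⊕ lam) 0), Two S.M x cs c p → (∀ e, p.2 (x e) = t e) → w.OK t δ →
  (∀ a ∈ c.1, a ∈ S.M.sys.inn π → ¬S.M.pin a ∧ a ∈ m.1) → S.M.sys.Piece (dc c π).1 π →
  (∀ a ∈ Sys.bd π, S.M.pin a ∨ π a = some true ∧ Disjoint (hf S.M a false) (hf S.M (x true) true)) →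
  y.Adm ((D.Λ i).B m c) ((D.Λ i).G m c p) → (∀ a ∈ c.1, a ∈ S.M.sys.inn π → S.Mtc D i m c p a y) →
  ∀ U, U = D.W.up (dc c π) c ⁻¹' D.W.pc (dc c π) π → (∃ ξ, RedOn ((D.Λ i).G m c p).F y.m y.W U ξ) →
  IntegrableOn (fun z => ‖y.m.Fg ((D.Λ i).G m c p).F y.W z‖ ^ 2)
    (U ∩ {z | -1 ≤ hZ D.W.toCaps c (x true) z}) ((D.Λ i).G m c p).F.μ → 0 < γ →
  ∃ p' y', Stg (D.Λ i) m x cs w t (S.M.sys.U π ∩ hf S.M (x true) true)
    (∫ z in U, w.g D.W.toCaps c t x z * y.m.kd ((D.Λ i).B m c) ((D.Λ i).G m c p).F y.W z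
      ∂((D.Λ i).G m c p).F.μ + γ)
    (∫ z in U ∩ w.K D.W.toCaps c t x, ‖y.m.Fg ((D.Λ i).G m c p).F y.W z‖ ^ 2
      ∂((D.Λ i).G m c p).F.μ + γ) (dc c π) p' π y'

/-- **GLU-1+2** -/
theorem gl2 (hw : GwStmt Lm) (red : AllJ Lm fun J _ _ => RedJ J) (l2 : AllJ Lm fun J _ _ => L2J J)
    (ly : LyStmt Lm) (hW : AllJ Lm fun J _ a => WlStmt (J.xs a).D) : Gl2Stmt Lm := by
  intro y₀ P S z R Z T δ Adm q y π cs w δ' γ h0 h1 sm d0 hX hE ha hy hπ fx two dj ok g0
  obtain ⟨hπ, tf⟩ := Finset.mem_filter.1 hπ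
  have := S.M.con
  have p0 := (sm.pc true π hπ).1
  have pπ := mem_Rg.1 hπ
  have hJ := okJ h1
  have bs := fun (l : S.ls) hl b => bs_of h0 h1 ly hW hy (l := l) hl b
  obtain ⟨x, X⟩ := pst h0 h1 sm d0 hX ha hy hπ (fun l hl => bs l (mem_LE.1 hl).1 true)
    (red _ _ _ _ _ _ Z.J Z.e z.t.a hJ _ (mem h1) _ q y _ hy p0 tf fx)
  have pO := (hy.ok hJ (mem h1)).2
  have hB := (z.D.Λ Z.i).B_ok Z.F.m Z.e
  have hG := (z.D.Λ Z.i).G_ok Z.F.m pO
  have c0 := isClopen_pc z.D.W.toCaps p0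
  have m0 := c0.isOpen.measurableSet
  have m1 := X.cl.isOpen.measurableSet
  have ch := (sm_hZ z.D.W.toCaps (.inr (two.fr true))).continuous
  have cH : IsClosed {w | -1 ≤ hZ z.D.W.toCaps Z.e (wl z.t true) w} := isClosed_le continuous_const ch
  have i0 := l2 _ _ _ _ _ _ Z.J Z.e z.t.a hJ _ (mem h1) _ q y _ hy (c0.isClosed.inter cH) fun a b ac => by
    rcases cases h0 h1 ac.2.2.2 with rfl | ⟨-, k | k⟩
    · refine .inl (disjoint_left.2 fun v hv hv' => ?_)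
      obtain ⟨u, k1, k2⟩ := exists_of_hZ z.D.W.toCaps (.inl ⟨ac.2.2.2, ac.1⟩)
        ((isNk_sub ac (hJ.nk _ _ _ _ ac) hv').trans (by norm_num))
      have k3 := disjoint_left.1 dj (.inr ⟨(u, hZ z.D.W.toCaps Z.e z.t.a v), rfl⟩)
      have k4 := three_le (((S.M.sys.w z.t.h).cov _ fun j => k3 (.inr j)).elim fun b j => by
        cases b
        exacts [j, (k3 (.inl j)).elim]) fun j => k3 (.inr j)
      have k5 : -1 ≤ hZ z.D.W.toCaps Z.e (wl z.t true) v := hv.2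
      rw [← k2, Caps.nj, comp_apply, hZ_φ _ (.inr (two.fr true)) k1] at k5
      simp only [pm, wl, cond_true] at k4 k5
      norm_num at k4
      linarith
    · exact (ac.1 k).elim
    · exact .inr ⟨⟨_, bs ⟨a, k⟩ ac.2.2.2 b, eqv_refl (bs ⟨a, k⟩ ac.2.2.2 b)⟩,
        hE _ (mem h1) _ q y ha hy a b ac⟩
  have md : ∀ v ∈ In z.D Z.e π, gw w y v = 1 ∧ v ∉ Kw w y := fun v hv => by
    obtain ⟨l, hl, hv⟩ := mem_iUnion₂.1 hv
    have p1 := ((sm.ins true π hπ _).2 (.inr ⟨l, hl, rfl⟩)).1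
    refine mid two (fun _ => rfl) _ ok fun e => ?_
    rcases caps_surj z.D.W.toCaps v with ⟨u, hu, rfl⟩ | ⟨a, k, k', b, rfl⟩
    · have k := (φ_mem_pc _ p1 hu).1 hv l false hp_self
      have k1 := h0.t.ls l l.2 (.inl k)
      have fz : wl z.t e ∈ S.fz := by cases e; exacts [h0.t.fz.2.2.1, h0.t.fz.2.1]
      rw [hZ_φ _ (.inr (two.fr e)) hu]
      refine le_trans (by norm_num) (three_le (by cases e; exacts [k1.2, k1.1]) fun j => ?_)
      exact (S.M.sys.w l).not_mem_sd k (((h0.cn.ok.fz _ fz).2.2 l l.2).1 j)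
    · exact (h0.cn.ok.lsp _ l.2 ((hp_eq.1 ((β_mem_pc _ p1 k k' 0).1 hv)).1 ▸ k')).elim
  obtain ⟨p', y', H⟩ := hw S z.D Z.i Z.F.m Z.e (Z.F.Θ y.s) π (wl z.t) cs w (tw y) δ' γ x two
    (fun _ => rfl) ok (fun a k k' => let ⟨l, _⟩ := mem_LE' h0 h1 hπ k k'
      ⟨h0.cn.ok.lsp _ l, cyl_m h0 h1 ⟨k, h0.cn.ok.lsp _ l⟩⟩) (pc_dc h0 h1 hπ)
    (fun a k => (Finset.mem_insert.1 (pπ.1.bd_subset k)).symm.imp (fun j => (mem_pe.1 j).2) (by
      rintro rfl
      obtain ⟨b, e⟩ := Option.ne_none_iff_exists'.1 k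
      obtain ⟨u, hu⟩ := pπ.1.toIsReg.nonempty
      exact ⟨(S.M.sys.w _).sd_inj (hu _ b e) (pπ.2 hu) ▸ e, dj⟩))
    X.adm X.mtc _ X.un.symm (X.un ▸ X.red) (by
      rw [union_inter_distrib_right]
      exact (i0.congr_fun (fun v hv => (X.Fg v hv.1).symm) (m0.inter cH.measurableSet)).union
        (X.L2.mono_set inter_subset_left)) g0
  have cg := cont_g two (fun _ => rfl) z.D.W.toCaps ok
  have ig : IntegrableOn (fun v => gw w y v * y.kd v) (z.D.W.pc Z.e (ou Z.e π)) (Z.J.G Z.e y.s).F.μ :=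
    hy.int.integrableOn.bdd_mul (c := 1) cg.aestronglyMeasurable (.of_forall fun v =>
      (Real.norm_of_nonneg (mul_nonneg (ok.mem _ _).1 (ok.mem _ _).1)).trans_le
        (mul_le_one₀ (ok.mem _ _).2 (ok.mem _ _).1 (ok.mem _ _).2))
  have ik : IntegrableOn (x.m.kd (Z.J.B Z.e) (Z.J.G Z.e y.s).F x.W) (In z.D Z.e π) (Z.J.G Z.e y.s).F.μ :=
    X.L2.mono' (Loc66.sm_kd hB hG X.adm.ok X.adm.conn).continuous.aestronglyMeasurable
      (.of_forall (Brk99.abs_kd hB hG X.adm.conn))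
  have e0 : EqOn (fun v => gw w y v * x.m.kd (Z.J.B Z.e) (Z.J.G Z.e y.s).F x.W v)
      (fun v => gw w y v * y.kd v) (z.D.W.pc Z.e (ou Z.e π)) := fun v hv => congrArg _ (X.kd v hv)
  have e1 : EqOn (fun v => gw w y v * x.m.kd (Z.J.B Z.e) (Z.J.G Z.e y.s).F x.W v)
      (x.m.kd (Z.J.B Z.e) (Z.J.G Z.e y.s).F x.W) (In z.D Z.e π) := fun v hv => by
    simp only [(md v hv).1, one_mul]
  refine ⟨p', y', { H with kd := H.kd.trans (add_le_add_left ?_ _), en := H.en.trans_eq ?_ }⟩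
  · refine ((setIntegral_union X.dj m1 (ig.congr_fun e0.symm m0) (ik.congr_fun e1.symm m1)).trans
      (congrArg₂ _ (setIntegral_congr_fun m0 e0) (setIntegral_congr_fun m1 e1))).trans_le ?_
    simp only [sub_mul, one_mul]
    rw [integral_sub hy.int.integrableOn ig]
    have := X.lev
    simp only [Z1.kp, Job.Obc.kap] at this
    linarith
  · rw [union_inter_distrib_right, show In z.D Z.e π ∩ Kw w y = ∅ from
      eq_empty_of_forall_notMem fun v hv => (md v hv.1).2 hv.2, union_empty]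
    refine congrArg (· + γ) (setIntegral_congr_fun (m0.inter (MeasurableSet.iUnion fun e =>
      (cont_ar two (fun _ => rfl) _ e).measurable measurableSet_Icc)) fun v hv => X.Fg v hv.1)

end Crest.Agent.X212.Kit16.Sb
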